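import Vale.Agent.P128.Regularity.Trichotomy.Good

/-!
# P128 R1: a line over a long range of scales stays a line at all smaller scales
-/

open MeasureTheory Set Metric Filter
open scoped ENNReal NNReal Topology Real RealInnerProductSpace

noncomputable section

namespace Vale.Agent.P128.Regularity

open Vale.Agent.P128.Bridge

/-- The singular set of an almost-minimiser is measurable. -/
theorem measurableSet_of_almostMin {U K : Set ℂ} {u : ℂ → ℝ} {G : ℂ → ℂ} {A M Λ : ℝ}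
    (hAM : IsAlmostMin U K u G A M Λ) : MeasurableSet K := by
  have : K = U \ (U \ K) := by rw [sdiff_sdiff_right_self, inter_eq_right.2 hAM.subset]
  rw [this]
  exact hAM.isOpen.measurableSet.diff hAM.isOpen_compl.measurableSet

/-- Flat like a line on the scales `[η s, s]`, flat like a line at all scales below `s`. -/
theorem persist (hClass : ClassSpec) (hCompact : CompactSpec) {U K : Set ℂ} {u : ℂ → ℝ}
    {G : ℂ → ℂ} {A M Λ : ℝ} (hAM : IsAlmostMin U K u G A M Λ) (hred : IsReducedIn U K) {x : ℂ}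
    {δ : ℝ} (hδ : 0 < δ) (hsub : closedBall x (3 * δ) ⊆ U) {ε : ℝ} (hε : 0 < ε)
    (hε1 : ε ≤ 1 / 10) :
    ∃ η ∈ Ioo (0 : ℝ) 1, ∀ w ∈ K ∩ closedBall x δ, ∀ s ∈ Ioc (0 : ℝ) η,
      (∀ t ∈ Icc (η * s) s, Good K G 2 w t ε) → ∀ t ∈ Ioc (0 : ℝ) s, Good K G 2 w t ε := by
  by_contra hcon
  push Not at hcon
  have hη : ∀ j : ℕ, 1 / ((j : ℝ) + 2) ∈ Ioo (0 : ℝ) 1 := fun j =>
    ⟨by positivity, by rw [div_lt_one (by positivity)]; linarith [j.cast_nonneg (α := ℝ)]⟩
  choose w hw s hs hgood t ht hbad using fun j => hcon _ (hη j)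
  -- a bad scale which is at least half of the largest one
  have hsel : ∀ j, ∃ τ : ℝ, τ ∈ Ioc 0 (s j) ∧ τ < 1 / ((j : ℝ) + 2) * s j ∧
      ¬ Good K G 2 (w j) τ ε ∧ ∀ r ∈ Ioc (2 * τ) (s j), Good K G 2 (w j) r ε := by
    intro j
    set B : Set ℝ := {r | r ∈ Ioc 0 (s j) ∧ ¬ Good K G 2 (w j) r ε} with hB
    have hne : B.Nonempty := ⟨t j, ht j, hbad j⟩
    have hbdd : BddAbove B := ⟨s j, fun r hr => hr.1.2⟩
    have hT : 0 < sSup B := lt_of_lt_of_le (ht j).1 (le_csSup hbdd ⟨ht j, hbad j⟩)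
    obtain ⟨τ, hτB, hτ⟩ := exists_lt_of_lt_csSup hne (show sSup B / 2 < sSup B by linarith)
    refine ⟨τ, hτB.1, ?_, hτB.2, fun r hr => ?_⟩
    · by_contra hlo
      exact hτB.2 (hgood j τ ⟨not_lt.1 hlo, hτB.1.2⟩)
    · by_contra hr'
      have h1 := le_csSup hbdd (show r ∈ B from ⟨⟨by linarith [hr.1, hτB.1.1], hr.2⟩, hr'⟩)
      linarith [hr.1]
  choose τ hτmem hτsmall hτbad hτgood using hsel
  have hη0 : Tendsto (fun j : ℕ => 1 / ((j : ℝ) + 2)) atTop (𝓝 0) := by
    simpa [one_div, Function.comp_def] using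
      tendsto_inv_atTop_zero.comp
        (tendsto_natCast_atTop_atTop.atTop_add (tendsto_const_nhds (x := (2 : ℝ))))
  have hτ0 : Tendsto τ atTop (𝓝 0) :=
    squeeze_zero (fun j => (hτmem j).1.le) (fun j => (hτmem j).2.trans (hs j).2) hη0
  have hball : ∀ j, closedBall (w j) δ ⊆ U := fun j =>
    (closedBall_subset_closedBall' (by linarith [mem_closedBall.1 (hw j).2])).trans hsub
  obtain ⟨φ, hφ, P, n, a, d, hM, hP0, hL⟩ :=
    exists_limit hClass hCompact hAM hred hδ (fun j => (hw j).1) hball (fun j => (hτmem j).1) hτ0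
  have hblow : ∀ (j : ℕ) (ρ : ℝ),
      Good (blowSet (w j) (τ j) K) (blowGrad (w j) (τ j) G) 2 0 ρ ε ↔
        Good K G 2 (w j) (τ j * ρ) ε := by
    intro j ρ
    have h := good_blow_iff (G := G) (n := 2) (x := w j) (z := 0) (ρ := ρ) (ε := ε) (hτmem j).1
      (measurableSet_closedBall.diff (measurableSet_of_almostMin hAM))
    rwa [smul_zero, add_zero] at h
  have hn : n = 2 := by
    refine eq_two_of_flat hL hM hε1 (ρ₀ := 2) fun ρ hρ => ?_
    have hρ0 : Tendsto (fun j : ℕ => 1 / ((φ j : ℝ) + 2) * ρ) atTop (𝓝 0) := by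
      simpa using (hη0.comp hφ.tendsto_atTop).mul_const ρ
    filter_upwards [hρ0.eventually_lt_const one_pos] with j hj
    refine ((hblow (φ j) ρ).2 (hτgood (φ j) _ ⟨?_, ?_⟩)).1
    · nlinarith [(hτmem (φ j)).1]
    · calc τ (φ j) * ρ ≤ 1 / ((φ j : ℝ) + 2) * s (φ j) * ρ :=
            mul_le_mul_of_nonneg_right (hτsmall (φ j)).le (by linarith)
        _ = 1 / ((φ j : ℝ) + 2) * ρ * s (φ j) := by ring
        _ ≤ 1 * s (φ j) := mul_le_mul_of_nonneg_right hj.le (hs (φ j)).1.le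
        _ = s (φ j) := one_mul _
  obtain ⟨j, hj⟩ := (good_away hL hM hP0 one_pos hε hε1 (Or.inl hn)
    (zj := fun _ => 0) (tj := fun _ => 1) tendsto_const_nhds tendsto_const_nhds).exists
  rw [hblow (φ j) 1, mul_one] at hj
  exact hτbad (φ j) hj

end Vale.Agent.P128.Regularity
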