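import Vale.Agent.P128.Regularity.Trichotomy.Blowup
import Vale.Agent.P128.Regularity.Trichotomy.Persist

/-!
# P128 R1: the trichotomy
-/

open MeasureTheory Set Metric Filter
open scoped ENNReal NNReal Topology Real RealInnerProductSpace

noncomputable section

namespace Vale.Agent.P128.Regularity

open Vale.Agent.P128.Bridge

theorem tendsto_of_le_one_div {d : ℕ → ℝ} (h0 : ∀ j, 0 < d j) {c : ℝ}
    (h : ∀ j, d j ≤ c * (1 / ((j : ℝ) + 1))) : Tendsto d atTop (𝓝 0) :=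
  squeeze_zero (fun j => (h0 j).le) h
    (by simpa using tendsto_one_div_add_atTop_nhds_zero_nat.const_mul c)

theorem one_div_nat_le_one (j : ℕ) : 1 / ((j : ℝ) + 1) ≤ 1 := by
  rw [div_le_one (by positivity)]; linarith [j.cast_nonneg (α := ℝ)]

section

variable (hClass : ClassSpec) (hCompact : CompactSpec) {U K : Set ℂ} {u : ℂ → ℝ} {G : ℂ → ℂ}
  {A M Λ : ℝ} (hAM : IsAlmostMin U K u G A M Λ) (hred : IsReducedIn U K) {x : ℂ} {δ : ℝ}
  (hδ : 0 < δ) (hsub : closedBall x (3 * δ) ⊆ U) (hx : x ∈ K)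

include hClass hCompact hAM hred hδ hsub hx

/-- One limit which is a line, or is a star centred elsewhere, makes `x` a line point. -/
theorem regime_two_of_limit {r : ℕ → ℝ} (hr : ∀ j, 0 < r j) (hr0 : Tendsto r atTop (𝓝 0))
    {P : Pair} {n : ℕ} {a d : ℂ} (hM : Model P n a d) (h0 : (0 : ℂ) ∈ P.K)
    (hL : IsLimit (fun j => blowSet x (r j) K) (fun j => blowGrad x (r j) G) P)
    (hna : n = 2 ∨ a ≠ 0) {ε : ℝ} (hε : 0 < ε) (hε1 : ε ≤ 1 / 10) :
    ∃ R, 0 < R ∧ Regime K G 2 x R ε := by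
  obtain ⟨η, hη, hper⟩ := persist hClass hCompact hAM hred hδ hsub hε hε1
  obtain ⟨θ, hθ, hθa⟩ : ∃ θ : ℝ, 0 < θ ∧ (n = 2 ∨ θ ≤ ε * dist 0 a) := by
    rcases hna with h | h
    · exact ⟨1, one_pos, Or.inl h⟩
    · exact ⟨ε * dist 0 a, mul_pos hε (dist_pos.2 h.symm), Or.inr le_rfl⟩
  have hlim : Tendsto (fun j => θ * r j) atTop (𝓝 0) := by simpa using hr0.const_mul θ
  obtain ⟨N, hN⟩ := eventually_atTop.1 (hlim.eventually_le_const (lt_min hη.1 hδ))
  by_contra hcon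
  have hbad : ∀ j : ℕ, ∃ τ ∈ Icc (η * θ) θ, ¬ Good K G 2 x (τ * r (j + N)) ε := by
    intro j
    by_contra hc
    push Not at hc
    have h1 := hr (j + N)
    have h2 := hN (j + N) (Nat.le_add_left N j)
    refine hcon ⟨θ * r (j + N), mul_pos hθ h1, hper x ⟨hx, mem_closedBall_self hδ.le⟩ _
      ⟨mul_pos hθ h1, h2.trans (min_le_left _ _)⟩ fun t ht => ?_⟩
    have := hc (t / r (j + N)) ⟨by rw [le_div_iff₀ h1]; linarith [ht.1],
      by rw [div_le_iff₀ h1]; exact ht.2⟩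
    rwa [div_mul_cancel₀ _ h1.ne'] at this
  choose τ hτ hτbad using hbad
  obtain ⟨τ₀, hτ₀, ψ, hψ, hτlim⟩ := isCompact_Icc.tendsto_subseq hτ
  have hτpos : 0 < τ₀ := (mul_pos hη.1 hθ).trans_le hτ₀.1
  have hg := good_away (hL.comp ((strictMono_id.add_const N).comp hψ)) hM h0 hτpos hε hε1
    (hθa.imp_right hτ₀.2.trans) (zj := fun _ => 0) tendsto_const_nhds hτlim
  obtain ⟨j, hj⟩ := hg.exists
  have h1 := hr (ψ j + N)
  have hsubj : closedBall x (τ (ψ j) * r (ψ j + N)) ⊆ U :=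
    (closedBall_subset_closedBall (by
      have h2 := hN (ψ j + N) (Nat.le_add_left N _)
      nlinarith [(hτ (ψ j)).2, min_le_right η δ])).trans hsub
  have := (good_of_blow hAM (x := x) (n := 2) (ε := ε) h1 hsubj).1
  rw [sub_self, smul_zero, mul_div_cancel_right₀ _ h1.ne'] at this
  exact hτbad _ (this hj)

/-- Around a line point every point has lines at all small scales. -/
theorem exists_line_region (hmod : AllLimits K G x (fun n _ => n = 2)) {ε : ℝ} (hε : 0 < ε)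
    (hε1 : ε ≤ 1 / 10) :
    ∃ R, 0 < R ∧ ∀ w ∈ K ∩ closedBall x R, Regime K G 2 w (2 * R) ε := by
  obtain ⟨η, hη, hper⟩ := persist hClass hCompact hAM hred hδ hsub hε hε1
  set R : ℕ → ℝ := fun j => min δ η / 2 * (1 / ((j : ℝ) + 1)) with hR
  have hm : 0 < min δ η := lt_min hδ hη.1
  have hR0 : ∀ j, 0 < R j := fun j => by rw [hR]; positivity
  have hRle : ∀ j, R j ≤ min δ η / 2 := fun j =>
    mul_le_of_le_one_right (by positivity) (one_div_nat_le_one j)
  by_contra hcon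
  have hbad : ∀ j : ℕ, ∃ w t, w ∈ K ∧ ((R j)⁻¹ • (w - x), t / R j) ∈
      closedBall (0 : ℂ) 1 ×ˢ Icc (η * 2) 2 ∧ ¬ Good K G 2 w t ε := by
    intro j
    by_contra hc
    push Not at hc
    refine hcon ⟨R j, hR0 j, fun w hw => hper w ⟨hw.1, closedBall_subset_closedBall (by
      linarith [hRle j, min_le_left δ η]) hw.2⟩ _ ⟨mul_pos two_pos (hR0 j), by
      linarith [hRle j, min_le_right δ η]⟩ fun t ht => hc w t hw.1 ⟨?_, ?_, ?_⟩⟩
    · rw [mem_closedBall_zero_iff, norm_smul, Real.norm_eq_abs, abs_of_pos (inv_pos.2 (hR0 j)),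
        inv_mul_le_one₀ (hR0 j), ← dist_eq_norm]
      exact hw.2
    · rw [le_div_iff₀ (hR0 j)]; linarith [ht.1]
    · rw [div_le_iff₀ (hR0 j)]; exact ht.2
  choose w t hwK hmem hwt using hbad
  obtain ⟨j, hj⟩ := no_bad hClass hCompact hAM hred hδ hsub hx hε hε1
    (S := closedBall (0 : ℂ) 1 ×ˢ Icc (η * 2) 2) ((isCompact_closedBall _ _).prod isCompact_Icc)
    (fun p hp => (mul_pos hη.1 two_pos).trans_le hp.2.1) (hmod.mono fun _ _ _ h p _ => Or.inl h)
    hR0 (tendsto_of_le_one_div hR0 fun j => le_rfl) hwK hmem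
  exact hwt j hj

/-- Around a point whose limits are centred at it, the other points have lines at small scales. -/
theorem exists_around (hmod : AllLimits K G x (fun n a => n = 2 ∨ a = 0)) {ε : ℝ} (hε : 0 < ε)
    (hε1 : ε ≤ 1) :
    ∃ R, 0 < R ∧ ∀ z ∈ K ∩ closedBall x R, z ≠ x → ∀ w ∈ K ∩ closedBall z (ε * dist z x / 32),
      Regime K G 2 w (2 * (ε * dist z x / 32)) (min ε (1 / 10)) := by
  set ε₀ : ℝ := min ε (1 / 10) with hε₀
  have hε₀p : 0 < ε₀ := lt_min hε (by norm_num)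
  have hε₀1 : ε₀ ≤ 1 / 10 := min_le_right _ _
  have hcmp : ε / 16 ≤ ε₀ * (31 / 32) := by
    rcases min_choice ε (1 / 10 : ℝ) with h | h <;> rw [hε₀, h] <;> nlinarith
  obtain ⟨η, hη, hper⟩ := persist hClass hCompact hAM hred hδ hsub hε₀p hε₀1
  have hm : 0 < min δ η := lt_min hδ hη.1
  by_contra hcon
  have hbad : ∀ j : ℕ, ∃ r : ℝ, ∃ w t, (0 < r ∧ r ≤ min δ η / 2 * (1 / ((j : ℝ) + 1))) ∧ w ∈ K ∧
      (r⁻¹ • (w - x), t / r) ∈
        (closedBall (0 : ℂ) 2 \ ball 0 (31 / 32)) ×ˢ Icc (η * (ε / 16)) (ε / 16) ∧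
      ¬ Good K G 2 w t ε₀ := by
    intro j
    by_contra hc
    push Not at hc
    have hRj : min δ η / 2 * (1 / ((j : ℝ) + 1)) ≤ min δ η / 2 :=
      mul_le_of_le_one_right (by positivity) (one_div_nat_le_one j)
    refine hcon ⟨min δ η / 2 * (1 / ((j : ℝ) + 1)), by positivity, fun z hz hzx w hw => ?_⟩
    have hd : 0 < dist z x := dist_pos.2 hzx
    have hdR : dist z x ≤ min δ η / 2 * (1 / ((j : ℝ) + 1)) := hz.2
    have hwz : dist w z ≤ ε * dist z x / 32 := hw.2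
    have hεd : ε * dist z x ≤ dist z x := mul_le_of_le_one_left hd.le hε1
    refine hper w ⟨hw.1, ?_⟩ _ ⟨by positivity, ?_⟩ fun t ht =>
      hc (dist z x) w t ⟨hd, hdR⟩ hw.1 ⟨⟨?_, ?_⟩, ?_, ?_⟩
    · rw [mem_closedBall]
      linarith [dist_triangle w z x, min_le_left δ η]
    · linarith [min_le_right δ η]
    · rw [mem_closedBall_zero_iff, norm_smul, Real.norm_eq_abs, abs_of_pos (inv_pos.2 hd),
        inv_mul_le_iff₀ hd, ← dist_eq_norm]
      linarith [dist_triangle w z x]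
    · rw [mem_ball_zero_iff, norm_smul, Real.norm_eq_abs, abs_of_pos (inv_pos.2 hd),
        not_lt, le_inv_mul_iff₀ hd, ← dist_eq_norm]
      linarith [dist_triangle z w x, dist_comm z w]
    · rw [le_div_iff₀ hd]; linarith [ht.1]
    · rw [div_le_iff₀ hd]; linarith [ht.2]
  choose r w t hr hwK hmem hwt using hbad
  obtain ⟨j, hj⟩ := no_bad hClass hCompact hAM hred hδ hsub hx hε₀p hε₀1
    (S := (closedBall (0 : ℂ) 2 \ ball 0 (31 / 32)) ×ˢ Icc (η * (ε / 16)) (ε / 16))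
    (((isCompact_closedBall _ _).diff isOpen_ball).prod isCompact_Icc)
    (fun p hp => (mul_pos hη.1 (by positivity)).trans_le hp.2.1)
    (hmod.mono fun _ a _ h p hp => h.imp_right fun ha => by
      have h31 : (31 / 32 : ℝ) ≤ dist p.1 0 := not_lt.1 hp.1.2
      rw [ha]
      exact hp.2.2.trans (hcmp.trans (mul_le_mul_of_nonneg_left h31 hε₀p.le)))
    (fun j => (hr j).1) (tendsto_of_le_one_div (fun j => (hr j).1) fun j => (hr j).2) hwK hmem
  exact hwt j hj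

/-- Without line limits every small dyadic range of scales has one type. -/
theorem exists_type_on_ranges (hmod : AllLimits K G x (fun n a => n ≠ 2 ∧ a = 0)) {ε : ℝ}
    (hε : 0 < ε) (hε1 : ε ≤ 1) :
    ∃ R, 0 < R ∧ ∀ r ∈ Ioc (0 : ℝ) R,
      ∃ m : ℕ, (m = 1 ∨ m = 3) ∧ ∀ t ∈ Icc (r / 2) r, Good K G m x t ε := by
  by_contra hcon
  have hbad : ∀ j : ℕ, ∃ r : ℝ, ∃ t₁ t₃, r ∈ Ioc 0 (δ * (1 / ((j : ℝ) + 1))) ∧
      t₁ ∈ Icc (r / 2) r ∧ t₃ ∈ Icc (r / 2) r ∧ ¬ Good K G 1 x t₁ ε ∧ ¬ Good K G 3 x t₃ ε := by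
    intro j
    by_contra hc
    push Not at hc
    refine hcon ⟨δ * (1 / ((j : ℝ) + 1)), by positivity, fun r hr => ?_⟩
    by_cases h1 : ∀ t ∈ Icc (r / 2) r, Good K G 1 x t ε
    · exact ⟨1, Or.inl rfl, h1⟩
    · push Not at h1
      obtain ⟨t₁, ht₁, hb⟩ := h1
      exact ⟨3, Or.inr rfl, fun t₃ ht₃ => hc r t₁ t₃ hr ht₁ ht₃ hb⟩
  choose r t₁ t₃ hr ht₁ ht₃ hb₁ hb₃ using hbad
  have hr0 : Tendsto r atTop (𝓝 0) := tendsto_of_le_one_div (fun j => (hr j).1) fun j => (hr j).2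
  have hmem : ∀ j, (t₁ j / r j, t₃ j / r j) ∈ Icc (1 / 2 : ℝ) 1 ×ˢ Icc (1 / 2 : ℝ) 1 := by
    have key : ∀ j t, t ∈ Icc (r j / 2) (r j) → t / r j ∈ Icc (1 / 2 : ℝ) 1 := fun j t ht =>
      ⟨by rw [le_div_iff₀ (hr j).1]; linarith [ht.1], by rw [div_le_one (hr j).1]; exact ht.2⟩
    exact fun j => ⟨key j _ (ht₁ j), key j _ (ht₃ j)⟩
  obtain ⟨⟨s₁, s₃⟩, hs, ψ, hψ, hlim⟩ := (isCompact_Icc.prod isCompact_Icc).tendsto_subseq hmem
  rw [nhds_prod_eq, tendsto_prod_iff'] at hlim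
  obtain ⟨φ, hφ, P, n, a, d, hM, h0, hL⟩ := exists_limit hClass hCompact hAM hred
    (x := fun _ => x) (r := r ∘ ψ) hδ (fun _ => hx)
    (fun _ => (closedBall_subset_closedBall (by linarith)).trans hsub) (fun j => (hr _).1)
    (hr0.comp hψ.tendsto_atTop)
  obtain ⟨hn2, ha⟩ := hmod (r ∘ ψ ∘ φ) (fun j => (hr _).1)
    (hr0.comp (hψ.tendsto_atTop.comp hφ.tendsto_atTop)) P n a d hM h0 hL
  have key : ∀ (t : ℕ → ℝ) (s : ℝ), 1 / 2 ≤ s → (∀ j, t j ∈ Icc (r j / 2) (r j)) →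
      Tendsto (fun j => t (ψ j) / r (ψ j)) atTop (𝓝 s) → ∃ j, Good K G n x (t j) ε := by
    intro t s hs ht hts
    obtain ⟨j, hj⟩ := (good_centre hL hM (show 0 < s by linarith) hε hε1 (zj := fun _ => 0)
      (by rw [ha]; exact tendsto_const_nhds) (hts.comp hφ.tendsto_atTop)).exists
    have hsubj : closedBall x (t (ψ (φ j))) ⊆ U := (closedBall_subset_closedBall (by
      have h1 : 1 / ((ψ (φ j) : ℝ) + 1) ≤ 1 := one_div_nat_le_one _
      nlinarith [(hr (ψ (φ j))).2, (ht (ψ (φ j))).2])).trans hsub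
    have := (good_of_blow hAM (x := x) (n := n) (ε := ε) (hr (ψ (φ j))).1 hsubj).1
    rw [sub_self, smul_zero] at this
    exact ⟨_, this hj⟩
  rcases hM.range with rfl | h | rfl
  · obtain ⟨j, hj⟩ := key t₁ s₁ hs.1.1 ht₁ hlim.1
    exact hb₁ j hj
  · exact hn2 h
  · obtain ⟨j, hj⟩ := key t₃ s₃ hs.2.1 ht₃ hlim.2
    exact hb₃ j hj

/-- Without line limits one type holds at all small scales. -/
theorem exists_type (hmod : AllLimits K G x (fun n a => n ≠ 2 ∧ a = 0)) :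
    ∃ n : ℕ, (n = 1 ∨ n = 3) ∧ ∀ ε, 0 < ε → ε ≤ 1 → ∃ R, 0 < R ∧ Regime K G n x R ε := by
  have step : ∀ ε : ℝ, 0 < ε → ε ≤ 1 / 10 →
      ∃ n : ℕ, (n = 1 ∨ n = 3) ∧ ∃ R, 0 < R ∧ Regime K G n x R ε := by
    intro ε hε hε1
    obtain ⟨R, hR, hrange⟩ :=
      exists_type_on_ranges hClass hCompact hAM hred hδ hsub hx hmod hε (by linarith)
    obtain ⟨m, hm, htop⟩ := hrange R ⟨hR, le_rfl⟩
    refine ⟨m, hm, R, hR, fun r hr => ?_⟩
    have hall : ∀ k : ℕ, ∀ t ∈ Icc (R / 2 ^ (k + 1)) R, Good K G m x t ε := by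
      intro k
      induction k with
      | zero => intro t ht; exact htop t (by simpa using ht)
      | succ k ih =>
        intro t ht
        rcases le_or_gt (R / 2 ^ (k + 1)) t with h | h
        · exact ih t ⟨h, ht.2⟩
        set r' : ℝ := R / 2 ^ (k + 1) with hr'
        have hr'0 : 0 < r' := by rw [hr']; positivity
        have hr'R : r' ≤ R := div_le_self hR.le (one_le_pow₀ one_le_two)
        obtain ⟨m', hm', hg⟩ := hrange r' ⟨hr'0, hr'R⟩
        have e1 := ih r' ⟨le_rfl, hr'R⟩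
        have e2 := hg r' ⟨by linarith, le_rfl⟩
        obtain rfl : m' = m := by
          rcases hm' with rfl | rfl <;> rcases hm with rfl | rfl
          · rfl
          · exact (Good.not_one_three hr'0 hε1 e2 e1).elim
          · exact (Good.not_one_three hr'0 hε1 e1 e2).elim
          · rfl
        refine hg t ⟨?_, h.le⟩
        rw [hr', div_div, ← pow_succ]
        exact ht.1
    obtain ⟨k, hk⟩ := exists_pow_lt_of_lt_one (div_pos hr.1 hR) (show (1 / 2 : ℝ) < 1 by norm_num)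
    refine hall k r ⟨?_, hr.2⟩
    rw [lt_div_iff₀ hR, one_div, inv_pow] at hk
    calc R / 2 ^ (k + 1) ≤ R / 2 ^ k := by gcongr <;> norm_num
      _ ≤ r := by rw [div_eq_inv_mul]; linarith
  obtain ⟨n, hn, R₁, hR₁, hreg₁⟩ := step (1 / 10) (by norm_num) le_rfl
  refine ⟨n, hn, fun ε hε hε1 => ?_⟩
  set ε₀ : ℝ := min ε (1 / 10) with hε₀
  obtain ⟨m, hm, R, hR, hreg⟩ := step ε₀ (lt_min hε (by norm_num)) (min_le_right _ _)
  have hs : 0 < min R R₁ := lt_min hR hR₁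
  obtain rfl : m = n := by
    have e1 := Good.mono hs.le (min_le_right ε (1 / 10 : ℝ)) (hreg _ ⟨hs, min_le_left _ _⟩)
    have e2 : Good K G n x (min R R₁) (1 / 10) := hreg₁ _ ⟨hs, min_le_right _ _⟩
    rcases hm with rfl | rfl <;> rcases hn with rfl | rfl
    · rfl
    · exact (Good.not_one_three hs le_rfl e1 e2).elim
    · exact (Good.not_one_three hs le_rfl e2 e1).elim
    · rfl
  exact ⟨R, hR, fun r hr => Good.mono hr.1.le (min_le_left _ _) (hreg r hr)⟩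

/-- A common radius for a regime at `x` and lines around `x`. -/
theorem exists_radius {n : ℕ} (hmod : AllLimits K G x (fun n a => n = 2 ∨ a = 0)) {ε : ℝ}
    (hε : 0 < ε) (hε1 : ε ≤ 1) {R₁ : ℝ} (hR₁ : 0 < R₁) (hreg : Regime K G n x R₁ ε)
    (hline : n = 2 → ∀ w ∈ K ∩ closedBall x R₁, Regime K G 2 w (2 * R₁) ε) :
    ∃ R : ℝ, 0 < R ∧ closedBall x (4 * R) ⊆ U ∧ Λ * R ≤ ε ∧ Regime K G n x R ε ∧
      (∀ z ∈ K ∩ closedBall x R, z ≠ x → LineHyp U K G Λ z (ε * dist z x / 32) ε) ∧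
      (n = 2 → LineHyp U K G Λ x R ε) := by
  obtain ⟨R₂, hR₂, haround⟩ := exists_around hClass hCompact hAM hred hδ hsub hx hmod hε hε1
  obtain ⟨R, hR, hR1, hR2, hRδ, hRΛ⟩ : ∃ R, 0 < R ∧ R ≤ R₁ ∧ R ≤ R₂ ∧ R ≤ δ / 2 ∧
      R ≤ ε / (|Λ| + 1) :=
    ⟨min (min R₁ R₂) (min (δ / 2) (ε / (|Λ| + 1))), by positivity,
      (min_le_left _ _).trans (min_le_left _ _), (min_le_left _ _).trans (min_le_right _ _),
      (min_le_right _ _).trans (min_le_left _ _), (min_le_right _ _).trans (min_le_right _ _)⟩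
  rw [le_div_iff₀ (by positivity)] at hRΛ
  have hΛR : Λ * R ≤ ε := by
    linarith [mul_le_mul_of_nonneg_right (le_abs_self Λ) hR.le]
  have hU : closedBall x (4 * R) ⊆ U :=
    (closedBall_subset_closedBall (by linarith)).trans hsub
  refine ⟨R, hR, hU, hΛR, fun r hr => hreg r ⟨hr.1, hr.2.trans hR1⟩, fun z hz hzx => ?_, fun hn => ?_⟩
  · have hd : 0 < dist z x := dist_pos.2 hzx
    have hzR : dist z x ≤ R := hz.2
    have hεd : ε * dist z x ≤ dist z x := mul_le_of_le_one_left hd.le hε1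
    refine ⟨by positivity, hz.1, closedBall_subset_of_dist_le hsub (by linarith), ?_, fun w hw r hr =>
      Good.mono hr.1.le (min_le_left _ _)
        (haround z ⟨hz.1, closedBall_subset_closedBall hR2 hz.2⟩ hzx w hw r hr)⟩
    have h1 : ε * dist z x / 32 ≤ R := by linarith
    linarith [mul_le_mul_of_nonneg_left h1 (abs_nonneg Λ),
      mul_le_mul_of_nonneg_right (le_abs_self Λ) (show 0 ≤ ε * dist z x / 32 by positivity)]
  · exact ⟨hR, hx, hU, hΛR, fun w hw r hr =>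
      hline hn w ⟨hw.1, closedBall_subset_closedBall hR1 hw.2⟩ r ⟨hr.1, hr.2.trans (by linarith)⟩⟩

end

/-- R1: at every point all small scales look like one of the three models; around it, lines. -/
theorem trichotomy (hClass : ClassSpec) (hCompact : CompactSpec) : TrichotomySpec := by
  intro U K u G A M Λ hAM hred x hx
  obtain ⟨δ₀, hδ₀, hball⟩ :=
    nhds_basis_closedBall.mem_iff.1 (hAM.isOpen.mem_nhds (hAM.subset hx))
  set δ : ℝ := δ₀ / 3 with hδdef
  have hδ : 0 < δ := by rw [hδdef]; positivity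
  have hsub : closedBall x (3 * δ) ⊆ U := by rwa [show 3 * δ = δ₀ by rw [hδdef]; ring]
  by_cases hcase : AllLimits K G x (fun n a => n ≠ 2 ∧ a = 0)
  · obtain ⟨n, hn, htype⟩ := exists_type hClass hCompact hAM hred hδ hsub hx hcase
    refine ⟨n, by omega, fun ε hε hε1 => ?_⟩
    obtain ⟨R₁, hR₁, hreg⟩ := htype ε hε hε1
    exact exists_radius hClass hCompact hAM hred hδ hsub hx
      (hcase.mono fun _ _ _ h => Or.inr h.2) hε hε1 hR₁ hreg (fun h => by omega)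
  · simp only [AllLimits, not_forall, not_and_or, not_not] at hcase
    obtain ⟨r, hr, hr0, P, n, a, d, hM, h0, hL, hna⟩ := hcase
    obtain ⟨R₀, hR₀, hreg₀⟩ := regime_two_of_limit hClass hCompact hAM hred hδ hsub hx hr hr0 hM h0
      hL hna (show (0 : ℝ) < 1 / 10 by norm_num) le_rfl
    have hall := allLimits_two hAM hδ hsub hR₀ hreg₀
    refine ⟨2, Or.inr (Or.inl rfl), fun ε hε hε1 => ?_⟩
    obtain ⟨R₁, hR₁, hline⟩ := exists_line_region hClass hCompact hAM hred hδ hsub hx hall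
      (show 0 < min ε (1 / 10) from lt_min hε (by norm_num)) (min_le_right _ _)
    have hline' : ∀ w ∈ K ∩ closedBall x R₁, Regime K G 2 w (2 * R₁) ε := fun w hw r hr =>
      Good.mono hr.1.le (min_le_left _ _) (hline w hw r hr)
    exact exists_radius hClass hCompact hAM hred hδ hsub hx (hall.mono fun _ _ _ h => Or.inl h)
      hε hε1 hR₁ (fun r hr => hline' x ⟨hx, mem_closedBall_self hR₁.le⟩ r
        ⟨hr.1, hr.2.trans (by linarith)⟩) fun _ => hline'

end Vale.Agent.P128.Regularity
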