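import Vale.Agent.P128.Regularity.Trichotomy.Good

/-!
# P128 R1: from sequences of blow-ups back to scales of `K`
-/

open MeasureTheory Set Metric Filter
open scoped ENNReal NNReal Topology Real RealInnerProductSpace

noncomputable section

namespace Vale.Agent.P128.Regularity

open Vale.Agent.P128.Bridge

theorem IsLimit.comp {Kj : ℕ → Set ℂ} {Gj : ℕ → ℂ → ℂ} {P : Pair} (h : IsLimit Kj Gj P)
    {φ : ℕ → ℕ} (hφ : StrictMono φ) : IsLimit (Kj ∘ φ) (Gj ∘ φ) P := by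
  refine ⟨h.sets.comp hφ, fun c s => (h.dirLow c s).trans ?_, fun c s => (h.lenLow c s).trans ?_,
    fun c s hs hfin e he => hφ.tendsto_atTop.eventually (h.upper c s hs hfin e he)⟩
  · change _ ≤ liminf ((fun j => ∫⁻ z in ball c s \ Kj j, ‖Gj j z‖ₑ ^ 2) ∘ φ) atTop
    rw [liminf_comp]
    exact liminf_le_liminf_of_le hφ.tendsto_atTop
  · change _ ≤ liminf ((fun j => μH[1] (Kj j ∩ ball c s)) ∘ φ) atTop
    rw [liminf_comp]
    exact liminf_le_liminf_of_le hφ.tendsto_atTop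

/-- A limit of points of the approximating sets lies in the limit set. -/
theorem IsLimit.mem_of_tendsto {Kj : ℕ → Set ℂ} {Gj : ℕ → ℂ → ℂ} {P : Pair}
    (h : IsLimit Kj Gj P) {q : ℕ → ℂ} (hq : ∀ j, q j ∈ Kj j) {y : ℂ}
    (hy : Tendsto q atTop (𝓝 y)) : y ∈ P.K := by
  rw [← P.isClosed.closure_eq, Metric.mem_closure_iff]
  intro e he
  obtain ⟨j, hj, hd⟩ := ((h.sets.1 (closedBall y 1) (isCompact_closedBall y 1) (subset_univ _) (e / 2)
    (half_pos he)).and ((tendsto_iff_dist_tendsto_zero.1 hy).eventually_lt_const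
      (lt_min one_pos (half_pos he)))).exists
  obtain ⟨w, hw, hqw⟩ := hj (q j) ⟨hq j, mem_closedBall.2 (hd.trans_le (min_le_left _ _)).le⟩
  have hd2 := hd.trans_le (min_le_right _ _)
  exact ⟨w, hw, by linarith [dist_triangle y (q j) w, dist_comm y (q j)]⟩

/-- A good scale of a blow-up is a good scale of `K`. -/
theorem good_of_blow {U K : Set ℂ} {u : ℂ → ℝ} {G : ℂ → ℂ} {A M Λ : ℝ}
    (hAM : IsAlmostMin U K u G A M Λ) {n : ℕ} {x w : ℂ} {r t ε : ℝ} (hr : 0 < r)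
    (hsub : closedBall w t ⊆ U) :
    Good (blowSet x r K) (blowGrad x r G) n (r⁻¹ • (w - x)) (t / r) ε ↔ Good K G n w t ε := by
  have h1 : x + r • r⁻¹ • (w - x) = w := by rw [smul_inv_smul₀ hr.ne']; abel
  have h2 : r * (t / r) = t := by field_simp
  rw [good_blow_iff hr, h1, h2]
  rw [h1, h2, show closedBall w t \ K = closedBall w t ∩ (U \ K) by
    ext p; exact ⟨fun h => ⟨h.1, hsub h.1, h.2⟩, fun h => ⟨h.1, h.2.2⟩⟩]
  exact measurableSet_closedBall.inter hAM.isOpen_compl.measurableSet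

theorem closedBall_subset_of_dist_le {U : Set ℂ} {x w : ℂ} {ρ t : ℝ} (hU : closedBall x ρ ⊆ U)
    (h : dist w x + t ≤ ρ) : closedBall w t ⊆ U :=
  (closedBall_subset_closedBall' (by linarith)).trans hU

/-- All blow-up limits at `x` satisfy `Q` (number of rays, centre). -/
def AllLimits (K : Set ℂ) (G : ℂ → ℂ) (x : ℂ) (Q : ℕ → ℂ → Prop) : Prop :=
  ∀ r : ℕ → ℝ, (∀ j, 0 < r j) → Tendsto r atTop (𝓝 0) → ∀ (P : Pair) (n : ℕ) (a d : ℂ),
    Model P n a d → (0 : ℂ) ∈ P.K →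
      IsLimit (fun j => blowSet x (r j) K) (fun j => blowGrad x (r j) G) P → Q n a

theorem AllLimits.mono {K : Set ℂ} {G : ℂ → ℂ} {x : ℂ} {Q Q' : ℕ → ℂ → Prop}
    (h : AllLimits K G x Q) (hQ : ∀ n a, (n = 1 ∨ n = 2 ∨ n = 3) → Q n a → Q' n a) :
    AllLimits K G x Q' := fun r hr hr0 P n a d hM h0 hL => hQ n a hM.range (h r hr hr0 P n a d hM h0 hL)

section

variable (hClass : ClassSpec) (hCompact : CompactSpec) {U K : Set ℂ} {u : ℂ → ℝ} {G : ℂ → ℂ}
  {A M Λ : ℝ} (hAM : IsAlmostMin U K u G A M Λ) (hred : IsReducedIn U K) {x : ℂ} {δ : ℝ}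
  (hδ : 0 < δ) (hsub : closedBall x (3 * δ) ⊆ U) (hx : x ∈ K)

include hClass hCompact hAM hred hδ hsub hx

/-- A sequence of bad scales at comparable distances contradicts a model with lines there. -/
theorem no_bad {ε : ℝ} (hε : 0 < ε) (hε1 : ε ≤ 1 / 10) {S : Set (ℂ × ℝ)} (hS : IsCompact S)
    (hSpos : ∀ p ∈ S, 0 < p.2)
    (hmod : AllLimits K G x (fun n a => ∀ p ∈ S, n = 2 ∨ p.2 ≤ ε * dist p.1 a))
    {r : ℕ → ℝ} (hr : ∀ j, 0 < r j) (hr0 : Tendsto r atTop (𝓝 0)) {w : ℕ → ℂ} {t : ℕ → ℝ}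
    (hw : ∀ j, w j ∈ K) (hmem : ∀ j, ((r j)⁻¹ • (w j - x), t j / r j) ∈ S) :
    ∃ j, Good K G 2 (w j) (t j) ε := by
  obtain ⟨⟨y, τ⟩, hyτ, ψ, hψ, hlim⟩ := hS.tendsto_subseq hmem
  rw [nhds_prod_eq, tendsto_prod_iff'] at hlim
  have hrψ : Tendsto (r ∘ ψ) atTop (𝓝 0) := hr0.comp hψ.tendsto_atTop
  obtain ⟨φ, hφ, P, n, a, d, hM, h0, hL⟩ := exists_limit hClass hCompact hAM hred
    (x := fun _ => x) (r := r ∘ ψ) hδ (fun _ => hx)
    (fun _ => (closedBall_subset_closedBall (by linarith)).trans hsub) (fun j => hr _) hrψ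
  have hy : Tendsto (fun j => (r (ψ (φ j)))⁻¹ • (w (ψ (φ j)) - x)) atTop (𝓝 y) :=
    hlim.1.comp hφ.tendsto_atTop
  have ht : Tendsto (fun j => t (ψ (φ j)) / r (ψ (φ j))) atTop (𝓝 τ) :=
    hlim.2.comp hφ.tendsto_atTop
  have hyK : y ∈ P.K := hL.mem_of_tendsto (fun j => by
    show x + r (ψ (φ j)) • _ ∈ K
    rw [smul_inv_smul₀ (hr _).ne', add_sub_cancel]
    exact hw _) hy
  have hQ := hmod (r ∘ ψ ∘ φ) (fun j => hr _) (hrψ.comp hφ.tendsto_atTop) P n a d hM h0 hL (y, τ) hyτ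
  have hgood := good_away hL hM hyK (hSpos _ hyτ) hε hε1 hQ hy ht
  have hsmall : ∀ᶠ j in atTop, dist (w (ψ (φ j))) x + t (ψ (φ j)) ≤ 3 * δ := by
    have h1 : Tendsto (fun j => r (ψ (φ j)) * (‖(r (ψ (φ j)))⁻¹ • (w (ψ (φ j)) - x)‖ +
        t (ψ (φ j)) / r (ψ (φ j)))) atTop (𝓝 (0 * (‖y‖ + τ))) :=
      (hrψ.comp hφ.tendsto_atTop).mul (hy.norm.add ht)
    rw [zero_mul] at h1
    filter_upwards [h1.eventually_le_const (show (0 : ℝ) < 3 * δ by positivity)] with j hj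
    refine le_of_eq_of_le ?_ hj
    have h := hr (ψ (φ j))
    rw [dist_eq_norm, norm_smul, Real.norm_eq_abs, abs_of_pos (inv_pos.2 h)]
    field_simp
  obtain ⟨j, hj, hj'⟩ := (hgood.and hsmall).exists
  exact ⟨ψ (φ j), (good_of_blow hAM (hr _) (closedBall_subset_of_dist_le hsub hj')).1 hj⟩

omit hClass hCompact hred hx in
/-- A point with lines at all small scales has only lines as blow-up limits. -/
theorem allLimits_two {R : ℝ} (hR : 0 < R) (hreg : Regime K G 2 x R (1 / 10)) :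
    AllLimits K G x (fun n _ => n = 2) := by
  intro r hr hr0 P n a d hM _ hL
  refine eq_two_of_flat hL hM le_rfl (ρ₀ := 0) fun ρ hρ => ?_
  have h : Tendsto (fun j => r j * ρ) atTop (𝓝 0) := by simpa using hr0.mul_const ρ
  filter_upwards [h.eventually_le_const (lt_min hR hδ)] with j hj
  have hρr : r j * ρ / r j = ρ := by field_simp [(hr j).ne']
  have := (good_of_blow hAM (x := x) (hr j)
    ((closedBall_subset_closedBall (by linarith [min_le_right R δ])).trans hsub)).2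
    (hreg (r j * ρ) ⟨mul_pos (hr j) hρ, hj.trans (min_le_left _ _)⟩)
  rw [hρr, sub_self, smul_zero] at this
  exact this.1

end

end Vale.Agent.P128.Regularity
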