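import Vale.Agent.P128.Regularity.Trichotomy.Limit

/-!
# P128 R1: one scale of a regime, and how it is read off a limit
-/

open MeasureTheory Set Metric Filter
open scoped ENNReal NNReal Topology Real RealInnerProductSpace

noncomputable section

namespace Vale.Agent.P128.Regularity

open Vale.Agent.P128.Bridge

/-- The condition of `Regime` at the single scale `r`. -/
def Good (K : Set ℂ) (G : ℂ → ℂ) (n : ℕ) (x : ℂ) (r ε : ℝ) : Prop :=
  Flat K n x r ε ∧
    μH[1] (K ∩ closedBall x r) ≤ ENNReal.ofReal ((n + ε) * r) ∧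
    (n ≠ 1 → dball K G x r ≤ ENNReal.ofReal (ε * r)) ∧
    (n = 1 → ENNReal.ofReal ((1 - ε) * r) ≤ dball K G x r ∧
      dball K G x r ≤ ENNReal.ofReal ((1 + ε) * r))

theorem regime_iff {K : Set ℂ} {G : ℂ → ℂ} {n : ℕ} {x : ℂ} {R ε : ℝ} :
    Regime K G n x R ε ↔ ∀ r ∈ Ioc (0 : ℝ) R, Good K G n x r ε := Iff.rfl

theorem Good.mono {K : Set ℂ} {G : ℂ → ℂ} {n : ℕ} {x : ℂ} {r ε ε' : ℝ} (hr : 0 ≤ r)
    (hε : ε ≤ ε') (h : Good K G n x r ε) : Good K G n x r ε' := by
  obtain ⟨⟨d, hd, h1, h2⟩, hH, hD, hT⟩ := h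
  have hm : ε * r ≤ ε' * r := mul_le_mul_of_nonneg_right hε hr
  refine ⟨⟨d, hd, fun z hz => ?_, fun w hw => ?_⟩,
    hH.trans (ENNReal.ofReal_le_ofReal (by nlinarith)),
    fun hn => (hD hn).trans (ENNReal.ofReal_le_ofReal hm),
    fun hn => ⟨(ENNReal.ofReal_le_ofReal (by nlinarith)).trans (hT hn).1,
      (hT hn).2.trans (ENNReal.ofReal_le_ofReal (by nlinarith))⟩⟩
  · obtain ⟨w, hw, hzw⟩ := h1 z hz
    exact ⟨w, hw, hzw.trans hm⟩
  · obtain ⟨z, hz, hzw⟩ := h2 w hw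
    exact ⟨z, hz, hzw.trans hm⟩

/-- The two types `1` and `3` exclude each other. -/
theorem Good.not_one_three {K : Set ℂ} {G : ℂ → ℂ} {x : ℂ} {r ε : ℝ} (hr : 0 < r) (hε : ε ≤ 1 / 10)
    (h1 : Good K G 1 x r ε) (h3 : Good K G 3 x r ε) : False := by
  have h := (h1.2.2.2 rfl).1.trans (h3.2.2.1 (by norm_num))
  rcases le_or_gt 0 ε with h0 | h0
  · rw [ENNReal.ofReal_le_ofReal_iff (by positivity)] at h
    nlinarith
  · rw [ENNReal.ofReal_of_nonpos (show ε * r ≤ 0 by nlinarith), nonpos_iff_eq_zero,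
      ENNReal.ofReal_eq_zero] at h
    nlinarith

/-! ### Scaling -/

theorem good_blow_iff {K : Set ℂ} {G : ℂ → ℂ} {n : ℕ} {x z : ℂ} {r ρ ε : ℝ} (hr : 0 < r)
    (hm : MeasurableSet (closedBall (x + r • z) (r * ρ) \ K)) :
    Good (blowSet x r K) (blowGrad x r G) n z ρ ε ↔ Good K G n (x + r • z) (r * ρ) ε := by
  have hH : μH[1] (blowSet x r K ∩ closedBall z ρ) =
      ENNReal.ofReal r⁻¹ * μH[1] (K ∩ closedBall (x + r • z) (r * ρ)) := by
    rw [← blowSet_closedBall hr z ρ, ← hausdorff_blowSet hr]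
    rfl
  have hD : dball (blowSet x r K) (blowGrad x r G) z ρ =
      ENNReal.ofReal r⁻¹ * dball K G (x + r • z) (r * ρ) := by
    have e1 : ∀ y, ‖Real.sqrt r • G y‖ₑ ^ 2 = ENNReal.ofReal r * ‖G y‖ₑ ^ 2 := fun y => by
      rw [enorm_smul, mul_pow, Real.enorm_eq_ofReal (Real.sqrt_nonneg r),
        ← ENNReal.ofReal_pow (Real.sqrt_nonneg r), Real.sq_sqrt hr.le]
    simp only [dball, blowGrad]
    rw [← blowSet_closedBall hr z ρ,
      show blowSet x r (closedBall (x + r • z) (r * ρ)) \ blowSet x r K =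
        blowSet x r (closedBall (x + r • z) (r * ρ) \ K) from rfl,
      setLIntegral_blow (fun y => ‖Real.sqrt r • G y‖ₑ ^ 2) hr x hm]
    simp only [e1]
    rw [lintegral_const_mul' _ _ ENNReal.ofReal_ne_top, ← mul_assoc,
      ← ENNReal.ofReal_mul (by positivity)]
    congr 2
    field_simp
  have hle : ∀ (a : ℝ) (X : ℝ≥0∞), ENNReal.ofReal r⁻¹ * X ≤ ENNReal.ofReal (a * ρ) ↔
      X ≤ ENNReal.ofReal (a * (r * ρ)) := fun a X => by
    rw [show a * ρ = r⁻¹ * (a * (r * ρ)) by field_simp, ENNReal.ofReal_mul (inv_nonneg.2 hr.le),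
      ENNReal.mul_le_mul_iff_right (by simpa using hr) ENNReal.ofReal_ne_top]
  have hge : ∀ (a : ℝ) (X : ℝ≥0∞), ENNReal.ofReal (a * ρ) ≤ ENNReal.ofReal r⁻¹ * X ↔
      ENNReal.ofReal (a * (r * ρ)) ≤ X := fun a X => by
    rw [show a * ρ = r⁻¹ * (a * (r * ρ)) by field_simp, ENNReal.ofReal_mul (inv_nonneg.2 hr.le),
      ENNReal.mul_le_mul_iff_right (by simpa using hr) ENNReal.ofReal_ne_top]
  have hdist : ∀ p q : ℂ, dist (x + r • p) (x + r • q) = r * dist p q := fun p q => by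
    rw [dist_add_left, dist_smul₀, Real.norm_eq_abs, abs_of_pos hr]
  have hball : ∀ p, p ∈ closedBall z ρ ↔ x + r • p ∈ closedBall (x + r • z) (r * ρ) := fun p => by
    rw [← blowSet_closedBall hr z ρ]
    rfl
  have hNear : Flat (blowSet x r K) n z ρ ε ↔ Flat K n (x + r • z) (r * ρ) ε := by
    refine exists_congr fun d => and_congr_right fun _ => ⟨fun h => ⟨fun p hp => ?_, fun q hq => ?_⟩,
      fun h => ⟨fun p hp => ?_, fun q hq => ?_⟩⟩
    · obtain ⟨p', rfl⟩ : ∃ p', p = x + r • p' := ⟨_, (aff_inv hr.ne' p).symm⟩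
      obtain ⟨w, hw, hd⟩ := h.1 p' ⟨hp.1, (hball p').2 hp.2⟩
      exact ⟨x + r • w, (starSet_affine hr).2 hw, by rw [hdist]; nlinarith⟩
    · obtain ⟨q', rfl⟩ : ∃ q', q = x + r • q' := ⟨_, (aff_inv hr.ne' q).symm⟩
      obtain ⟨p, hp, hd⟩ := h.2 q' ⟨(starSet_affine hr).1 hq.1, (hball q').2 hq.2⟩
      exact ⟨x + r • p, hp, by rw [hdist]; nlinarith⟩
    · obtain ⟨w, hw, hd⟩ := h.1 (x + r • p) ⟨hp.1, (hball p).1 hp.2⟩
      obtain ⟨w', rfl⟩ : ∃ w', w = x + r • w' := ⟨_, (aff_inv hr.ne' w).symm⟩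
      rw [hdist] at hd
      exact ⟨w', (starSet_affine hr).1 hw, le_of_mul_le_mul_left (by linarith) hr⟩
    · obtain ⟨p, hp, hd⟩ := h.2 (x + r • q) ⟨(starSet_affine hr).2 hq.1, (hball q).1 hq.2⟩
      obtain ⟨p', rfl⟩ : ∃ p', p = x + r • p' := ⟨_, (aff_inv hr.ne' p).symm⟩
      rw [hdist] at hd
      exact ⟨p', hp, le_of_mul_le_mul_left (by linarith) hr⟩
  simp only [Good, hNear, hH, hD, hle, hge]

/-! ### Reading a scale off a limit -/

theorem eventually_le_add_of_le_liminf {f : ℕ → ℝ≥0∞} {b : ℝ≥0∞} (hb : b ≠ ⊤)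
    (h : b ≤ liminf f atTop) {e : ℝ} (he : 0 < e) :
    ∀ᶠ j in atTop, b ≤ f j + ENNReal.ofReal e := by
  rcases eq_or_ne b 0 with rfl | hb0
  · exact Eventually.of_forall fun _ => zero_le
  · have hlt : b - ENNReal.ofReal e < liminf f atTop :=
      lt_of_lt_of_le (ENNReal.sub_lt_self hb hb0 (by simpa using he)) h
    filter_upwards [eventually_lt_of_lt_liminf hlt] with j hj
    exact tsub_le_iff_right.1 hj.le

theorem eventually_exists_near {Kj : ℕ → Set ℂ} {P : Pair} (hsets : LocConv univ Kj P.K) {C : Set ℂ}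
    (hC : IsCompact C) (hCK : C ⊆ P.K) {e : ℝ} (he : 0 < e) :
    ∀ᶠ j in atTop, ∀ p ∈ C, ∃ q ∈ Kj j, dist p q < e := by
  obtain ⟨t, ht, hcov⟩ := hC.elim_nhds_subcover (fun p => ball p (e / 2))
    fun p _ => ball_mem_nhds p (half_pos he)
  filter_upwards [(Finset.eventually_all t).2 fun p hp =>
    hsets.2 p ⟨hCK (ht p hp), mem_univ p⟩ (e / 2) (half_pos he)] with j hj p hp
  obtain ⟨c, hc, hpc⟩ := mem_iUnion₂.1 (hcov hp)
  obtain ⟨q, hq, hcq⟩ := hj c hc
  rw [mem_ball] at hpc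
  exact ⟨q, hq, (dist_triangle p c q).trans_lt (by linarith)⟩

/-- The arithmetic of `good_of_limit`. -/
theorem good_arith {n ε κ t u s : ℝ} (ht : 0 < t) (hε : 0 < ε) (hε1 : ε ≤ 1) (hκ : κ < ε)
    (hκ0 : 0 ≤ κ) (hn0 : 0 ≤ n) (hn3 : n ≤ 3) (hs : s ≤ t * (1 + ε / 16))
    (hlo : t * (1 - (ε - κ) / 20) ≤ u) (hhi : u ≤ t * (1 + ε / 20)) :
    ε * t / 2 ≤ ε * u ∧ 0 ≤ (1 - ε) * u ∧
    n * s + ((ε - κ) * t / 16 + (ε - κ) * t / 16) ≤ (n + ε) * u ∧
    κ * t + ((ε - κ) * t / 16 + (ε - κ) * t / 16) ≤ ε * u ∧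
    (1 - ε) * u + (ε - κ) * t / 16 ≤ t * (1 - ε / 2) ∧
    s + ((ε - κ) * t / 16 + (ε - κ) * t / 16) ≤ (1 + ε) * u := by
  have hD : 0 ≤ (ε - κ) * t := by nlinarith
  have hDE : (ε - κ) * t ≤ ε * t := by nlinarith
  have hu : t - (ε - κ) * t / 20 ≤ u := by linarith
  have hu0 : 0 ≤ u := by nlinarith
  have hεu : ε * t - (ε - κ) * t / 20 ≤ ε * u := by
    nlinarith [mul_le_mul_of_nonneg_left hu hε.le, mul_le_mul_of_nonneg_right hε1 hD]
  have hn' : n * (ε * t) ≤ 3 * (ε * t) := mul_le_mul_of_nonneg_right hn3 (by positivity)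
  have h1 : n * s ≤ n * t + n * (ε * t) / 16 := by nlinarith [mul_le_mul_of_nonneg_left hs hn0]
  have h2 : n * t - n * (ε * t) / 20 ≤ n * u := by
    nlinarith [mul_le_mul_of_nonneg_left hu hn0, mul_le_mul_of_nonneg_left hDE hn0]
  have hv : (1 - ε) * u ≤ (1 - ε) * (t * (1 + ε / 20)) :=
    mul_le_mul_of_nonneg_left hhi (by linarith)
  have hee : 0 ≤ ε * (ε * t) := by positivity
  refine ⟨by linarith, mul_nonneg (by linarith) hu0, ?_, ?_, ?_, ?_⟩
  · linarith
  · linarith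
  · nlinarith
  · linarith

/-- A scale at which the limit is an exact star gives a good scale of the approximants. -/
theorem good_of_limit {Kj : ℕ → Set ℂ} {Gj : ℕ → ℂ → ℂ} {P : Pair} (hL : IsLimit Kj Gj P)
    {n : ℕ} {z d : ℂ} (hd : ‖d‖ = 1) {t T ε κ : ℝ} (ht : 0 < t) (hT : t < T) (hε : 0 < ε)
    (hε1 : ε ≤ 1) (hκ : κ < ε) (hκ0 : 0 ≤ κ)
    (hset : P.K ∩ closedBall z T = starSet n z d ∩ closedBall z T)
    (hflat : n ≠ 1 → ∫⁻ w in ball z T \ P.K, ‖P.G w‖ₑ ^ 2 ≤ ENNReal.ofReal (κ * t))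
    (htip : n = 1 → ∀ s, 0 < s → dball P.K P.G z s = ENNReal.ofReal s) (hn : n ≤ 3)
    {zj : ℕ → ℂ} {tj : ℕ → ℝ} (hz : Tendsto zj atTop (𝓝 z)) (htj : Tendsto tj atTop (𝓝 t)) :
    ∀ᶠ j in atTop, Good (Kj j) (Gj j) n (zj j) (tj j) ε := by
  set e : ℝ := (ε - κ) * t / 16 with he
  have he0 : 0 < e := by rw [he]; have := sub_pos.2 hκ; positivity
  obtain ⟨s, ⟨hts, hsb⟩, hfin⟩ := P.exists_finite_sphere z
    (lt_min (show t < (t + T) / 2 by linarith) (show t < t * (1 + ε / 16) by nlinarith))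
  have hsT2 : s < (t + T) / 2 := hsb.trans_le (min_le_left _ _)
  have hsT : s ≤ T := by linarith
  set e' : ℝ := min (ε * t / 8) ((T - t) / 4) with he'
  have he'0 : 0 < e' := lt_min (by positivity) (by linarith)
  have he'1 : e' ≤ ε * t / 8 := min_le_left _ _
  have he'2 : e' ≤ (T - t) / 4 := min_le_right _ _
  have hsε : s ≤ t * (1 + ε / 16) := le_of_lt (hsb.trans_le (min_le_right _ _))
  have hs0 : 0 < s := ht.trans hts
  set DP : ℝ≥0∞ := ∫⁻ w in ball z s \ P.K, ‖P.G w‖ₑ ^ 2 with hDP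
  set HP : ℝ≥0∞ := μH[1] (P.K ∩ ball z s) with hHP
  have hEP : DP + HP ≠ ⊤ := (P.finite z s).ne
  obtain ⟨hDP', hHP'⟩ := ENNReal.add_ne_top.1 hEP
  have hHPle : HP ≤ ENNReal.ofReal (n * s) := by
    refine le_trans (measure_mono ?_) (hausdorff_starSet_le (z := z) hd s)
    intro w hw
    have hwT : w ∈ closedBall z T := ball_subset_closedBall (ball_subset_ball hsT hw.2)
    exact ⟨((hset ▸ ⟨hw.1, hwT⟩ : w ∈ starSet n z d ∩ closedBall z T)).1, hw.2⟩
  have hdist : Tendsto (fun j => dist (zj j) z) atTop (𝓝 0) := tendsto_iff_dist_tendsto_zero.1 hz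
  set s' : ℝ := t * (1 - ε / 4) with hs'
  have hout : ∀ᶠ j in atTop, closedBall (zj j) (tj j) ⊆ ball z s := by
    have h := (htj.add hdist).eventually_lt_const (show t + 0 < s by linarith)
    filter_upwards [h] with j hj w hw
    rw [mem_closedBall] at hw
    rw [mem_ball]
    linarith [dist_triangle w (zj j) z]
  have hin : ∀ᶠ j in atTop, ball z s' ⊆ closedBall (zj j) (tj j) := by
    have h := (htj.sub hdist).eventually_const_lt (show s' < t - 0 by rw [hs']; nlinarith)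
    filter_upwards [h] with j hj w hw
    rw [mem_ball] at hw
    rw [mem_closedBall]
    linarith [dist_triangle w z (zj j), dist_comm z (zj j)]
  have hcloseK := hL.sets.1 (closedBall z T) (isCompact_closedBall z T) (subset_univ _) e' he'0
  have hcloseS := eventually_exists_near hL.sets ((isCompact_closedBall z T).inter_left P.isClosed)
    inter_subset_left he'0
  filter_upwards [hout, hin, hL.upper z s hs0 hfin e he0,
    eventually_le_add_of_le_liminf hDP' (hL.dirLow z s) he0,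
    eventually_le_add_of_le_liminf hHP' (hL.lenLow z s) he0,
    eventually_le_add_of_le_liminf
      (ne_top_of_le_ne_top hDP' (lintegral_mono_set
        (sdiff_subset_sdiff_left (ball_subset_ball (by rw [hs']; nlinarith)))))
      (hL.dirLow z s') he0,
    htj.eventually_const_lt (show t * (1 - (ε - κ) / 20) < t by nlinarith),
    htj.eventually_lt_const (show t < t * (1 + ε / 20) by nlinarith),
    hdist.eventually_lt_const (show (0 : ℝ) < ε * t / 8 by positivity),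
    (htj.add hdist).eventually_lt_const (show t + 0 < s by linarith),
    hcloseK, hcloseS] with j h1 h2 hE hD hH hD' hlo hhi hdz hrad hK hS
  set DJ : ℝ≥0∞ := ∫⁻ w in ball z s \ Kj j, ‖Gj j w‖ₑ ^ 2
  set HJ : ℝ≥0∞ := μH[1] (Kj j ∩ ball z s)
  have hE' : DJ + HJ ≤ DP + HP + ENNReal.ofReal e := hE
  have hHJ : HJ ≤ HP + (ENNReal.ofReal e + ENNReal.ofReal e) := by
    refine ENNReal.le_of_add_le_add_left hDP' ?_
    calc DP + HJ ≤ DJ + ENNReal.ofReal e + HJ := add_le_add hD le_rfl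
      _ = DJ + HJ + ENNReal.ofReal e := by ring
      _ ≤ DP + HP + ENNReal.ofReal e + ENNReal.ofReal e := add_le_add hE' le_rfl
      _ = DP + (HP + (ENNReal.ofReal e + ENNReal.ofReal e)) := by ring
  have hDJ : DJ ≤ DP + (ENNReal.ofReal e + ENNReal.ofReal e) := by
    refine ENNReal.le_of_add_le_add_right hHP' ?_
    calc DJ + HP ≤ DJ + (HJ + ENNReal.ofReal e) := add_le_add le_rfl hH
      _ = DJ + HJ + ENNReal.ofReal e := by ring
      _ ≤ DP + HP + ENNReal.ofReal e + ENNReal.ofReal e := add_le_add hE' le_rfl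
      _ = DP + (ENNReal.ofReal e + ENNReal.ofReal e) + HP := by ring
  have hDjle : dball (Kj j) (Gj j) (zj j) (tj j) ≤ DJ :=
    lintegral_mono_set (sdiff_subset_sdiff_left h1)
  obtain ⟨hεt, hu1, hA1, hA2, hA3, hA4⟩ := good_arith (n := (n : ℝ)) ht hε hε1 hκ hκ0
    (Nat.cast_nonneg n) (by exact_mod_cast hn) hsε hlo.le hhi.le
  refine ⟨⟨d, hd, fun p hp => ?_, fun q hq => ?_⟩, ?_, fun hn1 => ?_, fun hn1 => ⟨?_, ?_⟩⟩
  · have hpz : p ∈ ball z s := h1 hp.2
    obtain ⟨w, hw, hpw⟩ := hK p ⟨hp.1, ball_subset_closedBall (ball_subset_ball hsT hpz)⟩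
    have hwT' : w ∈ closedBall z T := by
      rw [mem_closedBall]; linarith [dist_triangle w p z, dist_comm w p, mem_ball.1 hpz]
    refine ⟨w + (zj j - z), ?_, ?_⟩
    · have := starSet_translate (zj j - z) ((hset ▸ ⟨hw, hwT'⟩ : w ∈ starSet n z d ∩ closedBall z T)).1
      rwa [add_sub_cancel] at this
    · refine le_trans (dist_triangle p w _) ?_
      rw [dist_self_add_right, ← dist_eq_norm]
      linarith
  · have hqz : q - (zj j - z) ∈ closedBall z T := by
      rw [mem_closedBall, dist_eq_norm, show q - (zj j - z) - z = q - zj j by abel, ← dist_eq_norm]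
      have := mem_closedBall.1 hq.2
      linarith [dist_nonneg (x := zj j) (y := z)]
    have hqS : q - (zj j - z) ∈ starSet n z d := by
      have := starSet_translate (z - zj j) hq.1
      rwa [add_sub_cancel, show q + (z - zj j) = q - (zj j - z) by abel] at this
    obtain ⟨p, hp, hpq⟩ := hS _ (hset.symm ▸ ⟨hqS, hqz⟩ : q - (zj j - z) ∈ P.K ∩ closedBall z T)
    refine ⟨p, hp, ?_⟩
    refine le_trans (dist_triangle_left p q (q - (zj j - z))) ?_
    rw [show dist (q - (zj j - z)) q = dist (zj j) z by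
      rw [dist_eq_norm, sub_sub_cancel_left, norm_neg, ← dist_eq_norm]]
    linarith
  · refine le_trans (measure_mono (inter_subset_inter_right _ h1)) (hHJ.trans ?_)
    refine (add_le_add hHPle le_rfl).trans ?_
    rw [← ENNReal.ofReal_add he0.le he0.le, ← ENNReal.ofReal_add (by positivity) (by positivity)]
    exact ENNReal.ofReal_le_ofReal hA1
  · refine hDjle.trans (hDJ.trans ?_)
    refine (add_le_add ((lintegral_mono_set (sdiff_subset_sdiff_left (ball_subset_ball hsT))).trans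
      (hflat hn1)) le_rfl).trans ?_
    rw [← ENNReal.ofReal_add he0.le he0.le, ← ENNReal.ofReal_add (by positivity) (by positivity)]
    exact ENNReal.ofReal_le_ofReal hA2
  · have hlow : ENNReal.ofReal (t * (1 - ε / 2)) ≤ ∫⁻ w in ball z s' \ P.K, ‖P.G w‖ₑ ^ 2 := by
      rw [← htip hn1 (t * (1 - ε / 2)) (mul_pos ht (by linarith))]
      exact lintegral_mono_set (sdiff_subset_sdiff_left (closedBall_subset_ball (by rw [hs']; nlinarith)))
    refine ENNReal.le_of_add_le_add_right (a := ENNReal.ofReal e) ENNReal.ofReal_ne_top ?_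
    refine le_trans ?_ (hlow.trans (hD'.trans (add_le_add (lintegral_mono_set
      (sdiff_subset_sdiff_left h2)) le_rfl)))
    rw [← ENNReal.ofReal_add hu1 he0.le]
    exact ENNReal.ofReal_le_ofReal hA3
  · refine hDjle.trans (hDJ.trans ?_)
    refine (add_le_add ((lintegral_mono_set (sdiff_subset_sdiff_left ball_subset_closedBall)).trans
      (le_of_eq (htip hn1 s hs0))) le_rfl).trans ?_
    rw [← ENNReal.ofReal_add he0.le he0.le, ← ENNReal.ofReal_add hs0.le (by positivity)]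
    exact ENNReal.ofReal_le_ofReal hA4

/-! ### Models -/

/-- Dirichlet energy of a model in a disc away from the centre. -/
theorem Model.dirichlet_away {P : Pair} {n : ℕ} {a d : ℂ} (hM : Model P n a d) (y : ℂ) {T B : ℝ}
    (_hB : 0 ≤ B) (hn : n = 1 → T < dist y a ∧ T ^ 2 ≤ 2 * (dist y a - T) * B) :
    ∫⁻ w in ball y T \ P.K, ‖P.G w‖ₑ ^ 2 ≤ ENNReal.ofReal B := by
  by_cases hn1 : n = 1
  · obtain ⟨hT, hTB⟩ := hn hn1
    rcases le_or_gt T 0 with hT0 | hT0
    · simp [ball_eq_empty.2 hT0]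
    have hgap : 0 < dist y a - T := sub_pos.2 hT
    set c : ℝ := 1 / (2 * π * (dist y a - T)) with hc
    have hc0 : 0 ≤ c := by rw [hc]; positivity
    calc ∫⁻ w in ball y T \ P.K, ‖P.G w‖ₑ ^ 2 ≤ ∫⁻ _ in ball y T \ P.K, ENNReal.ofReal c := by
          refine lintegral_mono_ae ?_
          filter_upwards [ae_restrict_of_ae (hM.tip hn1 1 one_pos).2,
            ae_restrict_mem (measurableSet_ball.diff P.isClosed.measurableSet)] with w hw hwm
          rw [← ofReal_norm, ← ENNReal.ofReal_pow (norm_nonneg _)]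
          refine ENNReal.ofReal_le_ofReal ((hw hwm.2).trans ?_)
          rw [hc]
          refine one_div_le_one_div_of_le (by positivity)
            (mul_le_mul_of_nonneg_left ?_ (by positivity))
          have := mem_ball.1 hwm.1
          linarith [dist_triangle y w a, dist_comm y w]
      _ ≤ ENNReal.ofReal c * volume (ball y T) := by
          rw [setLIntegral_const]
          exact mul_le_mul_right (measure_mono sdiff_subset) _
      _ ≤ ENNReal.ofReal B := by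
          rw [Complex.volume_ball, ← ENNReal.ofReal_pow hT0.le, ← ENNReal.ofReal_coe_nnreal,
            NNReal.coe_real_pi, ← ENNReal.ofReal_mul (by positivity),
            ← ENNReal.ofReal_mul hc0]
          refine ENNReal.ofReal_le_ofReal ?_
          rw [hc, one_div_mul_eq_div, div_le_iff₀ (by positivity)]
          nlinarith [Real.pi_pos]
  · exact (lintegral_mono_set fun w hw => hw.2).trans ((hM.flat hn1).trans_le (zero_le))

/-- At the centre a model gives every scale of its own type. -/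
theorem good_centre {Kj : ℕ → Set ℂ} {Gj : ℕ → ℂ → ℂ} {P : Pair} (hL : IsLimit Kj Gj P)
    {n : ℕ} {a d : ℂ} (hM : Model P n a d) {t ε : ℝ} (ht : 0 < t) (hε : 0 < ε) (hε1 : ε ≤ 1)
    {zj : ℕ → ℂ} {tj : ℕ → ℝ} (hz : Tendsto zj atTop (𝓝 a)) (htj : Tendsto tj atTop (𝓝 t)) :
    ∀ᶠ j in atTop, Good (Kj j) (Gj j) n (zj j) (tj j) ε :=
  good_of_limit hL (d := d) hM.unit ht (lt_two_mul_self ht) hε hε1 hε le_rfl
    (by rw [hM.set_eq])
    (fun hn => (lintegral_mono_set fun w hw => hw.2).trans ((hM.flat hn).trans_le (zero_le)))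
    (fun hn s hs => (hM.tip hn s hs).1) (by rcases hM.range with h | h | h <;> omega) hz htj

/-- Away from the centre a model gives lines at all small scales. -/
theorem good_away {Kj : ℕ → Set ℂ} {Gj : ℕ → ℂ → ℂ} {P : Pair} (hL : IsLimit Kj Gj P)
    {n : ℕ} {a d y : ℂ} (hM : Model P n a d) (hy : y ∈ P.K) {t ε : ℝ} (ht : 0 < t) (hε : 0 < ε)
    (hε1 : ε ≤ 1 / 10) (hn : n = 2 ∨ t ≤ ε * dist y a)
    {zj : ℕ → ℂ} {tj : ℕ → ℝ} (hz : Tendsto zj atTop (𝓝 y)) (htj : Tendsto tj atTop (𝓝 t)) :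
    ∀ᶠ j in atTop, Good (Kj j) (Gj j) 2 (zj j) (tj j) ε := by
  set T := 11 / 10 * t with hT
  have hyS : y ∈ starSet n a d := hM.set_eq ▸ hy
  have hfar : n = 2 ∨ T < dist y a := hn.imp_right fun h => by
    rw [hT]; nlinarith [dist_nonneg (x := y) (y := a)]
  obtain ⟨e, he, heq⟩ := starSet_inter_eq_line hM.range hM.unit hyS hfar
  refine good_of_limit hL he ht (show t < T by rw [hT]; linarith) hε (by linarith)
    (show 3 / 4 * ε < ε by linarith) (by positivity) (by rw [hM.set_eq]; exact heq)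
    (fun _ => hM.dirichlet_away y (by positivity) fun hn1 => ?_) (fun h => absurd h (by norm_num))
    (by norm_num) hz htj
  have h2 : t ≤ ε * dist y a := hn.resolve_left (by omega)
  have h3 : T < dist y a := hfar.resolve_left (by omega)
  refine ⟨h3, ?_⟩
  have hgap : 89 / 100 * dist y a ≤ dist y a - T := by
    rw [hT]; nlinarith [dist_nonneg (x := y) (y := a)]
  calc T ^ 2 = 121 / 100 * t * t := by rw [hT]; ring
    _ ≤ 121 / 100 * (ε * dist y a) * t := by gcongr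
    _ ≤ 2 * (89 / 100 * dist y a) * (3 / 4 * ε * t) := by
        nlinarith [mul_nonneg (mul_nonneg hε.le (dist_nonneg (x := y) (y := a))) ht.le]
    _ ≤ _ := mul_le_mul_of_nonneg_right (by linarith) (by positivity)

/-- A limit that is flat at all large scales is a line. -/
theorem eq_two_of_flat {Kj : ℕ → Set ℂ} {Gj : ℕ → ℂ → ℂ} {P : Pair} (hL : IsLimit Kj Gj P)
    {n : ℕ} {a d : ℂ} (hM : Model P n a d) {ε ρ₀ : ℝ} (hε : ε ≤ 1 / 10)
    (hflat : ∀ ρ, ρ₀ < ρ → ∀ᶠ j in atTop, Flat (Kj j) 2 0 ρ ε) : n = 2 := by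
  set ρ : ℝ := 10 * (1 + ‖a‖) + |ρ₀| + 1 with hρ
  have hρa : 10 * (1 + ‖a‖) ≤ ρ := by rw [hρ]; linarith [abs_nonneg ρ₀]
  have hρ0 : ρ₀ < ρ := by rw [hρ]; linarith [le_abs_self ρ₀, norm_nonneg a]
  rcases hM.range with rfl | h | rfl
  · exfalso
    obtain ⟨j, ⟨dj, hdj, hN⟩, hK⟩ := ((hflat ρ hρ0).and
      (hL.sets.1 (closedBall 0 (2 * ρ)) (isCompact_closedBall _ _) (subset_univ _) 1 one_pos)).exists
    have hpick : ∀ c : ℂ, ‖c‖ = 1 → c ∈ starSet 2 0 dj →
        ∃ τ : ℝ, 0 ≤ τ ∧ dist (ρ • c) (a + τ • d) ≤ ε * ρ + 1 := by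
      intro c hc hcS
      obtain ⟨τ', hτ'⟩ := mem_starSet_two.1 hcS
      obtain ⟨q, hq, hqd⟩ := hN.2 (ρ • c) ⟨mem_starSet_two.2 ⟨ρ * τ', by rw [hτ']; simp [mul_smul]⟩, by
        simp [hc, abs_of_nonneg (show (0 : ℝ) ≤ ρ by linarith [norm_nonneg a])]⟩
      have hq2 : q ∈ closedBall (0 : ℂ) (2 * ρ) := by
        rw [mem_closedBall_zero_iff]
        have h1 : ‖q‖ ≤ ‖ρ • c‖ + dist q (ρ • c) := by
          rw [dist_eq_norm]; exact norm_le_norm_add_norm_sub' q (ρ • c)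
        rw [norm_smul, hc, Real.norm_eq_abs, abs_of_nonneg (by linarith [norm_nonneg a])] at h1
        nlinarith [norm_nonneg a]
      obtain ⟨w, hw, hqw⟩ := hK q ⟨hq, hq2⟩
      rw [hM.set_eq] at hw
      obtain ⟨τ, hτ, rfl⟩ := mem_starSet_one.1 hw
      exact ⟨τ, hτ, (dist_triangle_left _ _ q).trans (by linarith [dist_comm q (ρ • c)])⟩
    obtain ⟨p, hp, hpd⟩ := hpick dj hdj (mem_starSet_two.2 ⟨1, by simp⟩)
    obtain ⟨m, hm, hmd⟩ := hpick (-dj) (by rw [norm_neg, hdj]) (mem_starSet_two.2 ⟨-1, by simp⟩)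
    have hρp : (0 : ℝ) ≤ ρ := by linarith [norm_nonneg a]
    have hbound : ∀ (c : ℂ) (τ : ℝ), ‖c‖ = 1 → 0 ≤ τ →
        dist (ρ • c) (a + τ • d) ≤ ε * ρ + 1 →
        ρ - ε * ρ - 1 - ‖a‖ ≤ τ ∧ τ ≤ ρ + ε * ρ + 1 + ‖a‖ := by
      intro c τ hc hτ hd'
      have h1 : ‖ρ • c‖ = ρ := by rw [norm_smul, hc, mul_one, Real.norm_eq_abs, abs_of_nonneg hρp]
      have h2 : ‖τ • d‖ = τ := by rw [norm_smul, hM.unit, mul_one, Real.norm_eq_abs, abs_of_nonneg hτ]
      rw [dist_eq_norm, show ρ • c - (a + τ • d) = (ρ • c - τ • d) - a by abel] at hd'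
      have h3 := norm_sub_norm_le (ρ • c - τ • d) a
      have h4 := abs_norm_sub_norm_le (ρ • c) (τ • d)
      rw [h1, h2, abs_le] at h4
      constructor <;> linarith [h4.1, h4.2]
    obtain ⟨p1, p2⟩ := hbound dj p hdj hp hpd
    obtain ⟨m1, m2⟩ := hbound (-dj) m (by rw [norm_neg, hdj]) hm hmd
    have hdd : dist (ρ • dj) (ρ • -dj) = 2 * ρ := by
      rw [dist_eq_norm, smul_neg, sub_neg_eq_add, ← two_smul ℝ, norm_smul, norm_smul, hdj]
      simp [abs_of_nonneg hρp]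
    have hpm : dist (a + p • d) (a + m • d) = |p - m| := by
      rw [dist_add_left, dist_eq_norm, ← sub_smul, norm_smul, hM.unit, mul_one, Real.norm_eq_abs]
    have := dist_triangle4 (ρ • dj) (a + p • d) (a + m • d) (ρ • -dj)
    rw [hdd, hpm, dist_comm (a + m • d)] at this
    have habs : |p - m| ≤ 2 * (ε * ρ + 1 + ‖a‖) := abs_le.2 ⟨by linarith, by linarith⟩
    nlinarith [norm_nonneg a]
  · exact h
  · exfalso
    set σ : ℝ := ρ - ‖a‖ - 1 with hσ
    have hσ0 : 0 ≤ σ := by rw [hσ]; linarith [norm_nonneg a]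
    have hex : ∀ k : Fin 3, ∀ᶠ j in atTop, ∃ q ∈ Kj j, dist (a + σ • tStarDir 3 k d) q < 1 :=
      fun k => hL.sets.2 _ ⟨hM.set_eq ▸ tMem_starSet.2 ⟨k, σ, hσ0, rfl⟩, mem_univ _⟩ 1 one_pos
    obtain ⟨j, hq, dj, hdj, hN⟩ := ((eventually_all.2 hex).and (hflat ρ hρ0)).exists
    have hv : ‖Complex.I * dj‖ = 1 := by rw [norm_mul, Complex.norm_I, hdj, one_mul]
    obtain ⟨k, hk⟩ := exists_starDir_three_transversal hM.unit hv
    obtain ⟨q, hqK, hqd⟩ := hq k
    have hqρ : q ∈ closedBall (0 : ℂ) ρ := by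
      rw [mem_closedBall, dist_comm]
      have h1 : dist 0 q ≤ ‖a + σ • tStarDir 3 k d‖ + dist (a + σ • tStarDir 3 k d) q :=
        (dist_triangle 0 (a + σ • tStarDir 3 k d) q).trans_eq (by rw [dist_zero_left])
      have h2 : ‖a + σ • tStarDir 3 k d‖ ≤ ‖a‖ + σ := (norm_add_le _ _).trans_eq (by
        rw [norm_smul, norm_tStarDir k hM.unit, mul_one, Real.norm_eq_abs, abs_of_nonneg hσ0])
      rw [hσ] at h2; linarith
    obtain ⟨w, hw, hqw⟩ := hN.1 q ⟨hqK, hqρ⟩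
    obtain ⟨τ, rfl⟩ := mem_starSet_two.1 hw
    have horth : ⟪(0 : ℂ) + τ • dj, Complex.I * dj⟫ = 0 := by
      have h0 : ⟪dj, Complex.I * dj⟫ = 0 := by simp [Complex.inner]; ring
      rw [zero_add, real_inner_smul_left, h0, mul_zero]
    have hsplit : ⟪σ • tStarDir 3 k d, Complex.I * dj⟫ =
        ⟪a + σ • tStarDir 3 k d - q, Complex.I * dj⟫ + ⟪q - (0 + τ • dj), Complex.I * dj⟫
          - ⟪a, Complex.I * dj⟫ := by
      simp only [inner_sub_left, inner_add_left, horth]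
      ring
    have h1 := abs_real_inner_le_norm (a + σ • tStarDir 3 k d - q) (Complex.I * dj)
    have h2 := abs_real_inner_le_norm (q - (0 + τ • dj)) (Complex.I * dj)
    have h3 := abs_real_inner_le_norm a (Complex.I * dj)
    rw [hv, mul_one] at h1 h2 h3
    rw [← dist_eq_norm] at h1 h2
    have h4 : σ * (1 / 2) ≤ |⟪σ • tStarDir 3 k d, Complex.I * dj⟫| := by
      rw [real_inner_smul_left, abs_mul, abs_of_nonneg hσ0]
      exact mul_le_mul_of_nonneg_left hk hσ0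
    rw [hsplit] at h4
    have h5 := (abs_sub _ _).trans' h4
    have h6 := abs_add_le ⟪a + σ • tStarDir 3 k d - q, Complex.I * dj⟫ ⟪q - (0 + τ • dj), Complex.I * dj⟫
    rw [hσ] at h5
    nlinarith [norm_nonneg a]

end Vale.Agent.P128.Regularity
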