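import Vale.Agent.P128.Regularity.Defs

/-!
# P128 R1: elementary geometry of the stars
-/

open MeasureTheory Set Metric Filter
open scoped ENNReal NNReal Topology Real RealInnerProductSpace

noncomputable section

namespace Vale.Agent.P128.Regularity

open Vale.Agent.P128.Bridge

/-- Direction of the `k`-th ray of the `n`-star of direction `d`. -/
def tStarDir (n : ℕ) (k : Fin n) (d : ℂ) : ℂ :=
  d * Complex.exp (((2 * π * (k : ℕ) / n : ℝ) : ℂ) * Complex.I)

theorem tMem_starSet {n : ℕ} {x d z : ℂ} :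
    z ∈ starSet n x d ↔ ∃ k : Fin n, ∃ t : ℝ, 0 ≤ t ∧ z = x + t • tStarDir n k d := by
  simp only [starSet, mem_iUnion, mem_image, mem_Ici, tStarDir]
  constructor
  · rintro ⟨k, t, ht, rfl⟩
    exact ⟨k, t, ht, rfl⟩
  · rintro ⟨k, t, ht, rfl⟩
    exact ⟨k, t, ht, rfl⟩

theorem norm_tStarDir {n : ℕ} (k : Fin n) {d : ℂ} (hd : ‖d‖ = 1) : ‖tStarDir n k d‖ = 1 := by
  rw [tStarDir, norm_mul, hd, Complex.norm_exp_ofReal_mul_I, mul_one]

theorem center_mem_starSet {n : ℕ} (hn : 0 < n) (x d : ℂ) : x ∈ starSet n x d :=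
  tMem_starSet.2 ⟨⟨0, hn⟩, 0, le_rfl, by simp⟩

theorem starDir_three (k : Fin 3) (d : ℂ) : tStarDir 3 k d =
    d * ![(1 : ℂ), ⟨-1 / 2, Real.sqrt 3 / 2⟩, ⟨-1 / 2, -(Real.sqrt 3 / 2)⟩] k := by
  fin_cases k
  · simp [tStarDir]
  · simp only [tStarDir]
    congr 1
    apply Complex.ext
    · rw [Complex.exp_ofReal_mul_I_re]
      norm_num
      rw [show (2 * π / 3 : ℝ) = π - π / 3 by ring, Real.cos_pi_sub, Real.cos_pi_div_three]
    · rw [Complex.exp_ofReal_mul_I_im]
      norm_num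
      rw [show (2 * π / 3 : ℝ) = π - π / 3 by ring, Real.sin_pi_sub, Real.sin_pi_div_three]
  · simp only [tStarDir]
    congr 1
    apply Complex.ext
    · rw [Complex.exp_ofReal_mul_I_re]
      norm_num
      rw [show (2 * π * 2 / 3 : ℝ) = π / 3 + π by ring, Real.cos_add_pi, Real.cos_pi_div_three]
    · rw [Complex.exp_ofReal_mul_I_im]
      norm_num
      rw [show (2 * π * 2 / 3 : ℝ) = π / 3 + π by ring, Real.sin_add_pi, Real.sin_pi_div_three]

theorem inner_starDir_three {k l : Fin 3} (hlk : l ≠ k) {d : ℂ} (hd : ‖d‖ = 1) :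
    ⟪tStarDir 3 l d, tStarDir 3 k d⟫ = -(1 / 2) := by
  have hd' : d.re ^ 2 + d.im ^ 2 = 1 := by
    have := Complex.sq_norm d
    rw [hd, Complex.normSq_apply] at this
    linarith
  rw [starDir_three, starDir_three]
  fin_cases k <;> fin_cases l <;> first
    | exact absurd rfl hlk
    | (simp [Complex.inner, Complex.mul_re, Complex.mul_im]
       linear_combination (norm := ring_nf) (-(1 / 2 : ℝ)) * hd'
       all_goals (simp; ring))

theorem starDir_two (k : Fin 2) (d : ℂ) :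
    tStarDir 2 k d = if (k : ℕ) = 0 then d else -d := by
  fin_cases k
  · simp [tStarDir]
  · simp only [tStarDir, Nat.cast_one, mul_one, Nat.cast_ofNat]
    rw [show (2 * π / 2 : ℝ) = π by ring, Complex.exp_pi_mul_I]
    simp

theorem mem_starSet_two {x d z : ℂ} : z ∈ starSet 2 x d ↔ ∃ t : ℝ, z = x + t • d := by
  rw [tMem_starSet]
  constructor
  · rintro ⟨k, t, -, rfl⟩
    rw [starDir_two]
    split_ifs
    · exact ⟨t, rfl⟩
    · exact ⟨-t, by rw [neg_smul, smul_neg]⟩
  · rintro ⟨t, rfl⟩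
    rcases le_total 0 t with ht | ht
    · exact ⟨0, t, ht, by rw [starDir_two]; simp⟩
    · exact ⟨1, -t, neg_nonneg.2 ht, by rw [starDir_two]; simp⟩

theorem mem_starSet_one {x d z : ℂ} : z ∈ starSet 1 x d ↔ ∃ t : ℝ, 0 ≤ t ∧ z = x + t • d := by
  rw [tMem_starSet]
  simp [tStarDir]

theorem starSet_two_recenter {x d y : ℂ} (hy : y ∈ starSet 2 x d) :
    starSet 2 x d = starSet 2 y d := by
  obtain ⟨s, rfl⟩ := mem_starSet_two.1 hy
  ext z
  simp only [mem_starSet_two]
  constructor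
  · rintro ⟨t, rfl⟩
    exact ⟨t - s, by rw [sub_smul]; abel⟩
  · rintro ⟨t, rfl⟩
    exact ⟨s + t, by rw [add_smul]; abel⟩

theorem starSet_two_neg (x d : ℂ) : starSet 2 x (-d) = starSet 2 x d := by
  ext z
  simp only [mem_starSet_two]
  constructor <;> rintro ⟨t, rfl⟩ <;> exact ⟨-t, by simp⟩

theorem starSet_translate {n : ℕ} {x d z : ℂ} (v : ℂ) (hz : z ∈ starSet n x d) :
    z + v ∈ starSet n (x + v) d := by
  obtain ⟨k, t, ht, rfl⟩ := tMem_starSet.1 hz
  exact tMem_starSet.2 ⟨k, t, ht, by abel⟩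

theorem starSet_affine {n : ℕ} {x a d z : ℂ} {r : ℝ} (hr : 0 < r) :
    x + r • z ∈ starSet n (x + r • a) d ↔ z ∈ starSet n a d := by
  simp only [tMem_starSet]
  constructor
  · rintro ⟨k, t, ht, h⟩
    refine ⟨k, t / r, div_nonneg ht hr.le, ?_⟩
    rw [add_assoc, add_right_inj] at h
    refine smul_right_injective ℂ hr.ne' ?_
    simp only [smul_add, smul_smul, mul_div_cancel₀ _ hr.ne', h]
  · rintro ⟨k, t, ht, rfl⟩
    exact ⟨k, r * t, mul_nonneg hr.le ht, by rw [smul_add, mul_smul]; abel⟩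

/-- The three squared components of the unit directions of a `3`-star along a unit vector. -/
theorem exists_starDir_three_transversal {d v : ℂ} (hd : ‖d‖ = 1) (hv : ‖v‖ = 1) :
    ∃ k : Fin 3, 1 / 2 ≤ |⟪tStarDir 3 k d, v⟫| := by
  by_contra h
  push Not at h
  have h0 := h 0
  have h1 := h 1
  have h2 := h 2
  have hd' : d.re ^ 2 + d.im ^ 2 = 1 := by
    have := Complex.sq_norm d
    rw [hd, Complex.normSq_apply] at this
    linarith
  have hv' : v.re ^ 2 + v.im ^ 2 = 1 := by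
    have := Complex.sq_norm v
    rw [hv, Complex.normSq_apply] at this
    linarith
  rw [← sq_lt_sq₀ (abs_nonneg _) (by norm_num), sq_abs, starDir_three] at h0 h1 h2
  simp [Complex.inner, Complex.mul_re, Complex.mul_im] at h0 h1 h2
  have h3 : Real.sqrt 3 ^ 2 = 3 := Real.sq_sqrt (by norm_num)
  have hcs : (d.re * v.re + d.im * v.im) ^ 2 + (d.re * v.im - d.im * v.re) ^ 2 = 1 := by
    nlinarith
  nlinarith [sq_nonneg (d.re * v.re + d.im * v.im)]

/-- Away from its centre a star is locally a line. -/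
theorem starSet_inter_eq_line {n : ℕ} (hn : n = 1 ∨ n = 2 ∨ n = 3) {a d y : ℂ} (hd : ‖d‖ = 1)
    (hy : y ∈ starSet n a d) {s : ℝ} (hs : n = 2 ∨ s < dist y a) :
    ∃ e : ℂ, ‖e‖ = 1 ∧ starSet n a d ∩ closedBall y s = starSet 2 y e ∩ closedBall y s := by
  rcases eq_or_ne n 2 with rfl | hn2
  · exact ⟨d, hd, by rw [← starSet_two_recenter hy]⟩
  have hs' : s < dist y a := hs.resolve_left hn2
  obtain ⟨k, τ, hτ, rfl⟩ := tMem_starSet.1 hy
  set e := tStarDir n k d with he
  have he1 : ‖e‖ = 1 := norm_tStarDir k hd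
  have hdist : dist (a + τ • e) a = τ := by
    rw [dist_eq_norm, add_sub_cancel_left, norm_smul, he1, mul_one, Real.norm_eq_abs,
      abs_of_nonneg hτ]
  rw [hdist] at hs'
  refine ⟨e, he1, ?_⟩
  ext z
  simp only [mem_inter_iff, mem_closedBall, and_congr_left_iff]
  intro hz
  constructor
  · intro hzs
    obtain ⟨l, σ, hσ, rfl⟩ := tMem_starSet.1 hzs
    rcases eq_or_ne l k with rfl | hlk
    · exact mem_starSet_two.2 ⟨σ - τ, by rw [sub_smul]; abel⟩
    exfalso
    have hn3 : n = 3 := by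
      rcases hn with rfl | rfl | rfl
      · exact absurd (Subsingleton.elim l k) hlk
      · exact absurd rfl hn2
      · rfl
    subst hn3
    have hin : ⟪tStarDir 3 l d, e⟫ = -(1 / 2) := inner_starDir_three hlk hd
    have hsq : dist (a + σ • tStarDir 3 l d) (a + τ • e) ^ 2 = σ ^ 2 + σ * τ + τ ^ 2 := by
      rw [dist_eq_norm, add_sub_add_left_eq_sub, norm_sub_sq_real, norm_smul, norm_smul,
        norm_tStarDir l hd, he1, real_inner_smul_left, real_inner_smul_right, hin, Real.norm_eq_abs,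
        Real.norm_eq_abs, mul_one, mul_one, sq_abs, sq_abs]
      ring
    have h1 := pow_le_pow_left₀ dist_nonneg hz 2
    rw [hsq] at h1
    have h2 : s ^ 2 < τ ^ 2 := pow_lt_pow_left₀ hs' (le_trans dist_nonneg hz) two_ne_zero
    nlinarith [mul_nonneg hσ hτ]
  · intro hzl
    obtain ⟨t, rfl⟩ := mem_starSet_two.1 hzl
    rw [dist_eq_norm, add_sub_cancel_left, norm_smul, he1, mul_one, Real.norm_eq_abs, abs_le] at hz
    exact tMem_starSet.2 ⟨k, τ + t, by linarith [hz.1], by rw [add_smul, ← he]; abel⟩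

/-- Length of a star in a disc about its centre. -/
theorem hausdorff_starSet_le {n : ℕ} {z d : ℂ} (hd : ‖d‖ = 1) (s : ℝ) :
    μH[1] (starSet n z d ∩ ball z s) ≤ ENNReal.ofReal (n * s) := by
  have hray : ∀ k : Fin n,
      μH[1] ((fun t : ℝ => z + t • tStarDir n k d) '' Icc 0 s) = ENNReal.ofReal s := by
    intro k
    have hiso : Isometry fun t : ℝ => z + t • tStarDir n k d := by
      refine Isometry.of_dist_eq fun p q => ?_
      rw [dist_add_left, dist_eq_norm, ← sub_smul, norm_smul, norm_tStarDir k hd, mul_one,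
        Real.dist_eq, Real.norm_eq_abs]
    rw [hiso.hausdorffMeasure_image (Or.inl zero_le_one), hausdorffMeasure_real,
      Real.volume_Icc, sub_zero]
  refine le_trans (measure_mono (t := ⋃ k : Fin n, (fun t : ℝ => z + t • tStarDir n k d) '' Icc 0 s)
    ?_) ((measure_iUnion_fintype_le _ _).trans_eq ?_)
  · rintro w ⟨hw, hwb⟩
    obtain ⟨k, t, ht, rfl⟩ := tMem_starSet.1 hw
    rw [mem_ball, dist_eq_norm, add_sub_cancel_left, norm_smul, norm_tStarDir k hd, mul_one,
      Real.norm_eq_abs, abs_of_nonneg ht] at hwb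
    exact mem_iUnion.2 ⟨k, t, ⟨ht, hwb.le⟩, rfl⟩
  · simp only [hray, Finset.sum_const, Finset.card_univ, Fintype.card_fin, nsmul_eq_mul]
    rw [ENNReal.ofReal_mul (Nat.cast_nonneg n), ENNReal.ofReal_natCast]

end Vale.Agent.P128.Regularity
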