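import Vale.Agent.P128.Regularity.Spec
import Vale.Agent.P128.Regularity.Trichotomy.Stars
import Vale.Agent.P128.Bridge.Main
import Vale.Agent.P128.Bridge.Compact

/-!
# P128 R1: limits of blow-ups with moving centres, and their energies
-/

open MeasureTheory Set Metric Filter
open scoped ENNReal NNReal Topology Real RealInnerProductSpace

noncomputable section

namespace Vale.Agent.P128.Regularity

open Vale.Agent.P128.Bridge

/-- The models of the classification: an `n`-star with its energy. -/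
structure Model (P : Pair) (n : ℕ) (a d : ℂ) : Prop where
  range : n = 1 ∨ n = 2 ∨ n = 3
  unit : ‖d‖ = 1
  set_eq : P.K = starSet n a d
  flat : n ≠ 1 → ∫⁻ z in P.Kᶜ, ‖P.G z‖ₑ ^ 2 = 0
  tip : n = 1 → ∀ r : ℝ, 0 < r → dball P.K P.G a r = ENNReal.ofReal r ∧
    ∀ᵐ z, z ∉ P.K → ‖P.G z‖ ^ 2 ≤ 1 / (2 * π * dist z a)

theorem exists_model (hClass : ClassSpec) {P : Pair} (hP : IsGlobalMinimizer P)
    (hred : IsReduced P.K) (h0 : (0 : ℂ) ∈ P.K) : ∃ n a d, Model P n a d := by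
  rcases hClass P hP hred ⟨0, h0⟩ with ⟨a, d, hd, hK, hG⟩ | ⟨a, d, hd, hK, hG⟩
  · rcases hK with hK | hK
    · exact ⟨2, a, d, Or.inr (Or.inl rfl), hd, hK, fun _ => hG, fun h => absurd h (by norm_num)⟩
    · exact ⟨3, a, d, Or.inr (Or.inr rfl), hd, hK, fun _ => hG, fun h => absurd h (by norm_num)⟩
  · exact ⟨1, a, d, Or.inl rfl, hd, hK, fun h => absurd rfl h, fun _ => hG⟩

/-- What passes to the limit of rescaled sets and gradients. -/
structure IsLimit (Kj : ℕ → Set ℂ) (Gj : ℕ → ℂ → ℂ) (P : Pair) : Prop where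
  sets : LocConv univ Kj P.K
  dirLow : ∀ (c : ℂ) (s : ℝ), ∫⁻ z in ball c s \ P.K, ‖P.G z‖ₑ ^ 2 ≤
    liminf (fun j => ∫⁻ z in ball c s \ Kj j, ‖Gj j z‖ₑ ^ 2) atTop
  lenLow : ∀ (c : ℂ) (s : ℝ),
    μH[1] (P.K ∩ ball c s) ≤ liminf (fun j => μH[1] (Kj j ∩ ball c s)) atTop
  upper : ∀ (c : ℂ) (s : ℝ), 0 < s → (P.K ∩ sphere c s).Finite → ∀ e : ℝ, 0 < e →
    ∀ᶠ j in atTop, weakEnergy (Kj j) (Gj j) (ball c s) ≤
      weakEnergy P.K P.G (ball c s) + ENNReal.ofReal e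

theorem isReducedIn_blow {U K : Set ℂ} (hred : IsReducedIn U K) (x : ℂ) {r : ℝ} (hr : 0 < r) :
    IsReducedIn (blowSet x r U) (blowSet x r K) := by
  intro z hz s hs hsU
  have hsub : closedBall (x + r • z) (r * s) ⊆ U := by
    intro y hy
    have hy' : -(r⁻¹ • x) + r⁻¹ • y ∈ closedBall z s := by
      rw [← blowSet_closedBall hr z s, blowSet, mem_preimage, aff_inv hr.ne']
      exact hy
    have h := hsU hy'
    rwa [blowSet, mem_preimage, aff_inv hr.ne'] at h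
  have hB : blowSet x r (ball (x + r • z) (r * s)) = ball z s := by
    ext w
    simp only [blowSet, mem_preimage, mem_ball, dist_add_left, dist_smul₀, Real.norm_eq_abs,
      abs_of_pos hr, mul_lt_mul_iff_right₀ hr]
  rw [← hB]
  show 0 < μH[1] (blowSet x r (K ∩ ball (x + r • z) (r * s)))
  rw [hausdorff_blowSet hr]
  exact ENNReal.mul_pos (by simpa using hr) (hred _ hz (r * s) (mul_pos hr hs) hsub).ne'

/-- Convergence passes to subsequences. -/
theorem converges_comp {Kj : ℕ → Set ℂ} {uj : ℕ → ℂ → ℝ} {Gj : ℕ → ℂ → ℂ} {P : Pair}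
    (h : Converges Kj uj Gj P) {φ : ℕ → ℕ} (hφ : StrictMono φ) :
    Converges (Kj ∘ φ) (uj ∘ φ) (Gj ∘ φ) P := by
  refine ⟨h.sets.comp hφ, h.cont, fun p hp C hC hCp U hU =>
    hφ.tendsto_atTop.eventually (h.unif p hp C hC hCp U hU),
    fun C hC hCK => (h.grad C hC hCK).comp hφ.tendsto_atTop, fun c r => (h.length c r).trans ?_⟩
  change _ ≤ liminf ((fun j => μH[1] (Kj j ∩ ball c r)) ∘ φ) atTop
  rw [liminf_comp]
  exact liminf_le_liminf_of_le hφ.tendsto_atTop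

/-- Blow-ups of an almost-minimiser at moving centres have model limits. -/
theorem exists_limit (hClass : ClassSpec) (hCompact : CompactSpec) {U K : Set ℂ} {u : ℂ → ℝ}
    {G : ℂ → ℂ} {A M Λ : ℝ} (hAM : IsAlmostMin U K u G A M Λ) (hred : IsReducedIn U K)
    {x : ℕ → ℂ} {r : ℕ → ℝ} {δ : ℝ} (hδ : 0 < δ) (hx : ∀ j, x j ∈ K)
    (hball : ∀ j, closedBall (x j) δ ⊆ U) (hr : ∀ j, 0 < r j) (hr0 : Tendsto r atTop (𝓝 0)) :
    ∃ φ : ℕ → ℕ, StrictMono φ ∧ ∃ (P : Pair) (n : ℕ) (a d : ℂ), Model P n a d ∧ (0 : ℂ) ∈ P.K ∧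
      IsLimit (fun j => blowSet (x (φ j)) (r (φ j)) K)
        (fun j => blowGrad (x (φ j)) (r (φ j)) G) P := by
  set Uj : ℕ → Set ℂ := fun j => blowSet (x j) (r j) U
  set Kj : ℕ → Set ℂ := fun j => blowSet (x j) (r j) K
  set uj : ℕ → ℂ → ℝ := fun j => blowFun (x j) (r j) u
  set Gj : ℕ → ℂ → ℂ := fun j => blowGrad (x j) (r j) G
  set Aj : ℕ → ℝ := fun j => A * (r j * Real.sqrt (r j))
  set Mj : ℕ → ℝ := fun j => M / Real.sqrt (r j)
  set Λj : ℕ → ℝ := fun j => Λ * r j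
  have hAMj : ∀ j, IsAlmostMin (Uj j) (Kj j) (uj j) (Gj j) (Aj j) (Mj j) (Λj j) :=
    fun j => scaleSpec _ _ _ _ _ _ _ hAM (x j) (r j) (hr j)
  have hexh : ∀ S : ℝ, ∀ᶠ j in atTop, closedBall (0 : ℂ) S ⊆ Uj j := by
    intro S
    have h : Tendsto (fun j => r j * |S|) atTop (𝓝 0) := by simpa using hr0.mul_const |S|
    filter_upwards [h.eventually_le_const hδ] with j hj z hz
    refine hball j ?_
    rw [mem_closedBall, dist_self_add_left, norm_smul, Real.norm_eq_abs, abs_of_pos (hr j)]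
    exact (mul_le_mul_of_nonneg_left ((mem_closedBall_zero_iff.1 hz).trans (le_abs_self S))
      (hr j).le).trans hj
  have hA0 : Tendsto Aj atTop (𝓝 0) := by
    have h1 : Tendsto (fun j => Real.sqrt (r j)) atTop (𝓝 0) := by
      simpa [Function.comp_def] using (Real.continuous_sqrt.tendsto 0).comp hr0
    simpa [Aj] using (hr0.mul h1).const_mul A
  have hΛ0 : Tendsto Λj atTop (𝓝 0) := by simpa [Λj] using hr0.const_mul Λ
  obtain ⟨φ, hφ, P, hP0, hPred, hconv⟩ := hCompact Uj Kj uj Gj Aj Mj Λj hAMj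
    (fun j => isReducedIn_blow hred (x j) (hr j)) (fun j => by simpa [Kj, blowSet] using hx j)
    hexh hA0 hΛ0
  have hP : IsGlobalMinimizer P := limitSpec (Uj ∘ φ) (Kj ∘ φ) (uj ∘ φ) (Gj ∘ φ) (Aj ∘ φ)
    (Mj ∘ φ) (Λj ∘ φ) (fun j => hAMj (φ j)) (fun S => hφ.tendsto_atTop.eventually (hexh S))
    (hΛ0.comp hφ.tendsto_atTop) P hconv
  obtain ⟨n, a, d, hmodel⟩ := exists_model hClass hP hPred hP0
  refine ⟨φ, hφ, P, n, a, d, hmodel, hP0, hconv.sets, fun c s => ?_, hconv.length, ?_⟩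
  · refine dirichlet_le_liminf hconv (fun C hC hCK => ?_) c s
    obtain ⟨R, hR⟩ := hC.isBounded.subset_closedBall 0
    filter_upwards [hconv.sets.eventually_disjoint P.isClosed hC hCK,
      hφ.tendsto_atTop.eventually (hexh R)] with j h1 h2
    exact (hAMj (φ j)).contGrad.mono fun z hz => ⟨h2 (hR hz), h1 hz⟩
  intro c s hs hfin e he
  by_contra hne
  obtain ⟨ψ, hψ, hbad⟩ := extraction_of_frequently_atTop (not_eventually.1 hne)
  have hcomp : PairCompetes P P c (s / 2) :=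
    ⟨⟨∅, isCompact_empty, empty_subset _, rfl, Eventually.of_forall fun _ => rfl⟩,
      fun _ _ _ _ h => h⟩
  have hφψ : StrictMono (φ ∘ ψ) := hφ.comp hψ
  set D : ℝ≥0∞ := ∫⁻ z in ball c s \ P.K, ‖P.G z‖ₑ ^ 2
  set H : ℝ≥0∞ := μH[1] (P.K ∩ ball c s)
  set E : ℕ → ℝ≥0∞ := fun j =>
    (∫⁻ z in ball c s \ Kj (φ (ψ j)), ‖Gj (φ (ψ j)) z‖ₑ ^ 2) + μH[1] (Kj (φ (ψ j)) ∩ ball c s)
  set t : ℕ → ℝ := fun k => 1 / ((k : ℝ) + 1)
  have hcore : ∀ k, liminf E atTop ≤ ENNReal.ofReal (1 + t k) * D + H +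
      ((hfin.toFinset.card : ℝ≥0∞) * ENNReal.ofReal (2 * π * t k) + ENNReal.ofReal (t k)) :=
    fun k => limit_core (Uj := Uj ∘ (φ ∘ ψ)) (Aj := Aj ∘ (φ ∘ ψ)) (Mj := Mj ∘ (φ ∘ ψ))
      (Λj := Λj ∘ (φ ∘ ψ)) (fun j => hAMj (φ (ψ j)))
      (fun S => hφψ.tendsto_atTop.eventually (hexh S)) (hΛ0.comp hφψ.tendsto_atTop)
      (converges_comp hconv hψ) (half_pos hs) (by linarith) hcomp hfin.coe_toFinset.symm
      (by positivity) (by positivity) (by positivity)
  have hfinE : D + H ≠ ⊤ := (P.finite c s).ne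
  have hlim : Tendsto (fun k => ENNReal.ofReal (1 + t k) * D + H +
      ((hfin.toFinset.card : ℝ≥0∞) * ENNReal.ofReal (2 * π * t k) + ENNReal.ofReal (t k)))
      atTop (𝓝 (1 * D + H + (0 + 0))) := by
    have h0 : Tendsto t atTop (𝓝 0) := tendsto_one_div_add_atTop_nhds_zero_nat
    refine (Tendsto.add ?_ tendsto_const_nhds).add (Tendsto.add ?_ ?_)
    · refine ENNReal.Tendsto.mul_const ?_ (Or.inl one_ne_zero)
      simpa using ENNReal.tendsto_ofReal (h0.const_add 1)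
    · have := ENNReal.Tendsto.const_mul (a := ((hfin.toFinset.card : ℕ) : ℝ≥0∞))
        (ENNReal.tendsto_ofReal (h0.const_mul (2 * π))) (Or.inr (ENNReal.natCast_ne_top _))
      simpa using this
    · simpa using ENNReal.tendsto_ofReal h0
  have hle : liminf E atTop ≤ D + H := by
    simpa using ge_of_tendsto hlim (Eventually.of_forall hcore)
  have hge : D + H + ENNReal.ofReal e ≤ liminf E atTop :=
    le_liminf_of_le (by isBoundedDefault) (Eventually.of_forall fun j => le_of_lt (not_le.1 (hbad j)))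
  exact absurd (hge.trans hle)
    (not_le.2 (ENNReal.lt_add_right hfinE (by simpa using he)))

end Vale.Agent.P128.Regularity
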